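import Mathlib

/-!
Generic fact on finite symmetric Markov chains: a Poincare inequality for a symmetric,
stochastic, positive semidefinite matrix gives exponential decay of the distance of the
`t`-step distribution from the uniform distribution.
-/

namespace Vale.Agent.Lib.P335.H48

open Finset

variable {Ω : Type*} [Fintype Ω]

/-- The bilinear form `⟨f, P g⟩`. -/
def bil (P : Matrix Ω Ω ℝ) (f g : Ω → ℝ) : ℝ := ∑ x, f x * ∑ y, P x y * g y

/-- `P` applied to a function. -/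
def app (P : Matrix Ω Ω ℝ) (f : Ω → ℝ) : Ω → ℝ := fun x => ∑ y, P x y * f y

theorem bil_eq (P : Matrix Ω Ω ℝ) (f g : Ω → ℝ) : bil P f g = ∑ x, f x * app P g x := rfl

theorem bil_symm (P : Matrix Ω Ω ℝ) (hs : ∀ x y, P x y = P y x) (f g : Ω → ℝ) :
    bil P f g = bil P g f := by
  unfold bil
  simp_rw [Finset.mul_sum]
  rw [Finset.sum_comm]
  apply Finset.sum_congr rfl; intro x _
  apply Finset.sum_congr rfl; intro y _
  rw [hs y x]; ring

theorem bil_quad (P : Matrix Ω Ω ℝ) (hs : ∀ x y, P x y = P y x) (f g : Ω → ℝ) (s : ℝ) :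
    bil P (fun x => f x + s * g x) (fun x => f x + s * g x)
      = bil P g g * (s * s) + 2 * bil P g f * s + bil P f f := by
  have h1 : bil P f g = bil P g f := bil_symm P hs f g
  have : bil P (fun x => f x + s * g x) (fun x => f x + s * g x)
      = bil P f f + s * bil P f g + s * bil P g f + s * s * bil P g g := by
    unfold bil
    simp only [Finset.mul_sum]
    rw [← Finset.sum_add_distrib, ← Finset.sum_add_distrib, ← Finset.sum_add_distrib]
    apply Finset.sum_congr rfl; intro x _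
    rw [← Finset.sum_add_distrib, ← Finset.sum_add_distrib, ← Finset.sum_add_distrib]
    apply Finset.sum_congr rfl; intro y _
    ring
  rw [this, h1]; ring

/-- Cauchy-Schwarz for a symmetric positive semidefinite form. -/
theorem bil_cs (P : Matrix Ω Ω ℝ) (hs : ∀ x y, P x y = P y x)
    (hpsd : ∀ f : Ω → ℝ, 0 ≤ bil P f f) (f g : Ω → ℝ) :
    bil P g f ^ 2 ≤ bil P f f * bil P g g := by
  have h : ∀ s : ℝ, 0 ≤ bil P g g * (s * s) + 2 * bil P g f * s + bil P f f := by
    intro s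
    rw [← bil_quad P hs f g s]
    exact hpsd _
  have := discrim_le_zero h
  unfold discrim at this
  nlinarith

/-- The contraction estimate on mean-zero functions. -/
theorem app_norm_le (P : Matrix Ω Ω ℝ) (hs : ∀ x y, P x y = P y x)
    (hrow : ∀ x, ∑ y, P x y = 1)
    (hpsd : ∀ f : Ω → ℝ, 0 ≤ bil P f f)
    (γ : ℝ) (hγ1 : γ ≤ 1)
    (hgap : ∀ f : Ω → ℝ, ∑ x, f x = 0 → bil P f f ≤ (1 - γ) * ∑ x, f x ^ 2)
    (f : Ω → ℝ) (hf : ∑ x, f x = 0) :
    (∑ x, app P f x = 0) ∧ ∑ x, app P f x ^ 2 ≤ (1 - γ) ^ 2 * ∑ x, f x ^ 2 := by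
  have hg0 : ∑ x, app P f x = 0 := by
    unfold app
    rw [Finset.sum_comm]
    have : ∀ y, ∑ x, P x y * f y = f y := by
      intro y
      rw [← Finset.sum_mul]
      have : ∑ x, P x y = 1 := by
        rw [← hrow y]
        apply Finset.sum_congr rfl; intro x _; exact hs x y
      rw [this, one_mul]
    simp_rw [this]
    exact hf
  refine ⟨hg0, ?_⟩
  set g := app P f with hg
  have hgg : bil P g f = ∑ x, g x ^ 2 := by
    rw [bil_eq]
    apply Finset.sum_congr rfl; intro x _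
    rw [hg]; ring
  have hcs := bil_cs P hs hpsd f g
  rw [hgg] at hcs
  have hf1 := hgap f hf
  have hg1 := hgap g hg0
  have hf0 := hpsd f
  have hg00 := hpsd g
  set A := ∑ x, g x ^ 2 with hA
  set B := ∑ x, f x ^ 2 with hB
  have hA0 : 0 ≤ A := Finset.sum_nonneg (fun x _ => sq_nonneg _)
  have hB0 : 0 ≤ B := Finset.sum_nonneg (fun x _ => sq_nonneg _)
  have h1g : 0 ≤ 1 - γ := by linarith
  -- A^2 ≤ (1-γ) B * (1-γ) A
  have hprod : A ^ 2 ≤ ((1 - γ) * B) * ((1 - γ) * A) :=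
    le_trans hcs (mul_le_mul hf1 hg1 hg00 (mul_nonneg h1g hB0))
  by_cases hA1 : A = 0
  · rw [hA1]; positivity
  · have hApos : 0 < A := lt_of_le_of_ne hA0 (Ne.symm hA1)
    have : A * A ≤ ((1 - γ) ^ 2 * B) * A := by nlinarith
    exact le_of_mul_le_mul_right this hApos

theorem pow_row_sum [DecidableEq Ω] (P : Matrix Ω Ω ℝ) (hrow : ∀ x, ∑ y, P x y = 1) (t : ℕ) (x : Ω) :
    ∑ y, (P ^ t) x y = 1 := by
  induction t with
  | zero => simp [Matrix.one_apply]
  | succ t ih =>
    simp_rw [pow_succ, Matrix.mul_apply]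
    rw [Finset.sum_comm]
    simp_rw [← Finset.mul_sum, hrow, mul_one]
    exact ih

/-- Poincare inequality implies decay of the `ℓ¹` distance to uniform. -/
theorem l1_le_of_poincare [DecidableEq Ω] (P : Matrix Ω Ω ℝ) (hs : ∀ x y, P x y = P y x)
    (hrow : ∀ x, ∑ y, P x y = 1)
    (hpsd : ∀ f : Ω → ℝ, 0 ≤ bil P f f)
    (γ : ℝ) (hγ1 : γ ≤ 1)
    (hgap : ∀ f : Ω → ℝ, ∑ x, f x = 0 → bil P f f ≤ (1 - γ) * ∑ x, f x ^ 2)
    (t : ℕ) (x : Ω) :
    ∑ y, |(P ^ t) x y - 1 / (Fintype.card Ω : ℝ)|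
      ≤ Real.sqrt (Fintype.card Ω) * (1 - γ) ^ t := by
  have hNpos : 0 < (Fintype.card Ω : ℝ) := by
    have : 0 < Fintype.card Ω := Fintype.card_pos_iff.mpr ⟨x⟩
    exact_mod_cast this
  set N : ℝ := (Fintype.card Ω : ℝ) with hN
  have h1g : 0 ≤ 1 - γ := by linarith
  -- the deviation vectors
  set v : ℕ → Ω → ℝ := fun t y => (P ^ t) x y - 1 / N with hv
  have hv0 : ∀ t, ∑ y, v t y = 0 := by
    intro t
    simp only [hv, Finset.sum_sub_distrib, pow_row_sum P hrow t x, Finset.sum_const,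
      Finset.card_univ, nsmul_eq_mul]
    rw [← hN]; field_simp; ring
  have hstep : ∀ t, v (t + 1) = app P (v t) := by
    intro t
    funext y
    simp only [hv, app, pow_succ, Matrix.mul_apply, mul_sub, Finset.sum_sub_distrib]
    congr 1
    · apply Finset.sum_congr rfl; intro z _
      rw [hs y z]; ring
    · rw [← Finset.sum_mul, hrow, one_mul]
  have hnorm : ∀ t, ∑ y, v t y ^ 2 ≤ ((1 - γ) ^ 2) ^ t * 1 := by
    intro t
    induction t with
    | zero =>
      simp only [pow_zero, one_mul, hv, Matrix.one_apply]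
      have : ∀ y, (((if x = y then (1:ℝ) else 0) - 1 / N) ^ 2)
          = (if x = y then (1 - 2 / N) else 0) + 1 / N ^ 2 := by
        intro y
        split_ifs
        · ring
        · ring
      simp_rw [this]
      rw [Finset.sum_add_distrib, Finset.sum_ite_eq, Finset.sum_const, Finset.card_univ,
        nsmul_eq_mul, ← hN]
      simp only [Finset.mem_univ, if_true]
      have : N * (1 / N ^ 2) = 1 / N := by field_simp
      rw [this]
      have : 0 < 1 / N := by positivity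
      linarith [show 2 / N = 2 * (1 / N) by ring]
    | succ t ih =>
      rw [hstep t, pow_succ]
      have := (app_norm_le P hs hrow hpsd γ hγ1 hgap (v t) (hv0 t)).2
      calc ∑ y, app P (v t) y ^ 2 ≤ (1 - γ) ^ 2 * ∑ y, v t y ^ 2 := this
        _ ≤ (1 - γ) ^ 2 * (((1 - γ) ^ 2) ^ t * 1) :=
            mul_le_mul_of_nonneg_left ih (sq_nonneg _)
        _ = ((1 - γ) ^ 2) ^ t * (1 - γ) ^ 2 * 1 := by ring
  -- Cauchy-Schwarz
  have hcs : (∑ y, |v t y|) ^ 2 ≤ N * ∑ y, v t y ^ 2 := by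
    have := sq_sum_le_card_mul_sum_sq (s := (Finset.univ : Finset Ω)) (f := fun y => |v t y|)
    simp only [sq_abs, Finset.card_univ] at this
    rw [hN]; exact this
  have hsum0 : 0 ≤ ∑ y, |v t y| := Finset.sum_nonneg (fun y _ => abs_nonneg _)
  have hrhs0 : 0 ≤ Real.sqrt N * (1 - γ) ^ t := by positivity
  have hsq : (∑ y, |v t y|) ^ 2 ≤ (Real.sqrt N * (1 - γ) ^ t) ^ 2 := by
    calc (∑ y, |v t y|) ^ 2 ≤ N * ∑ y, v t y ^ 2 := hcs
      _ ≤ N * (((1 - γ) ^ 2) ^ t * 1) := mul_le_mul_of_nonneg_left (hnorm t) hNpos.le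
      _ = (Real.sqrt N * (1 - γ) ^ t) ^ 2 := by
          rw [mul_pow, Real.sq_sqrt hNpos.le, mul_one, ← pow_mul, ← pow_mul, mul_comm 2 t]
  exact abs_le_of_sq_le_sq' hsq hrhs0 |>.2

/-- Dirichlet form identity for a symmetric matrix with unit row sums. -/
theorem dirichlet (P : Matrix Ω Ω ℝ) (hs : ∀ x y, P x y = P y x)
    (hrow : ∀ x, ∑ y, P x y = 1) (f : Ω → ℝ) :
    ∑ x, f x ^ 2 - bil P f f = (1 / 2) * ∑ x, ∑ y, P x y * (f x - f y) ^ 2 := by
  have h1 : ∑ x, ∑ y, P x y * f x ^ 2 = ∑ x, f x ^ 2 := by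
    apply Finset.sum_congr rfl; intro x _
    rw [← Finset.sum_mul, hrow, one_mul]
  have h2 : ∑ x, ∑ y, P x y * f y ^ 2 = ∑ x, f x ^ 2 := by
    rw [Finset.sum_comm]
    apply Finset.sum_congr rfl; intro y _
    rw [← Finset.sum_mul]
    have : ∑ x, P x y = 1 := by
      rw [← hrow y]
      apply Finset.sum_congr rfl; intro x _; exact hs x y
    rw [this, one_mul]
  have h3 : ∑ x, ∑ y, P x y * (f x - f y) ^ 2
      = ∑ x, ∑ y, P x y * f x ^ 2 + ∑ x, ∑ y, P x y * f y ^ 2 - 2 * bil P f f := by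
    unfold bil
    simp only [Finset.mul_sum]
    rw [← Finset.sum_add_distrib, ← Finset.sum_sub_distrib]
    apply Finset.sum_congr rfl; intro x _
    rw [← Finset.sum_add_distrib, ← Finset.sum_sub_distrib]
    apply Finset.sum_congr rfl; intro y _
    ring
  rw [h3, h1, h2]; ring

/-- A symmetric stochastic matrix with nonnegative entries and diagonal at least `1/2`
is positive semidefinite. -/
theorem bil_nonneg_of_lazy (P : Matrix Ω Ω ℝ) (hs : ∀ x y, P x y = P y x)
    (hrow : ∀ x, ∑ y, P x y = 1) (hnn : ∀ x y, 0 ≤ P x y) (hdiag : ∀ x, 1 / 2 ≤ P x x)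
    (f : Ω → ℝ) : 0 ≤ bil P f f := by
  have h1 : ∑ x, ∑ y, P x y * f x ^ 2 = ∑ x, f x ^ 2 := by
    apply Finset.sum_congr rfl; intro x _
    rw [← Finset.sum_mul, hrow, one_mul]
  have h2 : ∑ x, ∑ y, P x y * f y ^ 2 = ∑ x, f x ^ 2 := by
    rw [Finset.sum_comm]
    apply Finset.sum_congr rfl; intro y _
    rw [← Finset.sum_mul]
    have : ∑ x, P x y = 1 := by
      rw [← hrow y]
      apply Finset.sum_congr rfl; intro x _; exact hs x y
    rw [this, one_mul]
  have h3 : ∑ x, ∑ y, P x y * (f x + f y) ^ 2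
      = ∑ x, ∑ y, P x y * f x ^ 2 + ∑ x, ∑ y, P x y * f y ^ 2 + 2 * bil P f f := by
    unfold bil
    simp only [Finset.mul_sum]
    rw [← Finset.sum_add_distrib, ← Finset.sum_add_distrib]
    apply Finset.sum_congr rfl; intro x _
    rw [← Finset.sum_add_distrib, ← Finset.sum_add_distrib]
    apply Finset.sum_congr rfl; intro y _
    ring
  have h4 : ∑ x, 2 * f x ^ 2 ≤ ∑ x, ∑ y, P x y * (f x + f y) ^ 2 := by
    apply Finset.sum_le_sum
    intro x _
    have hsingle := Finset.single_le_sum (s := (Finset.univ : Finset Ω))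
      (f := fun y => P x y * (f x + f y) ^ 2)
      (fun y _ => mul_nonneg (hnn x y) (sq_nonneg _)) (Finset.mem_univ x)
    refine le_trans ?_ hsingle
    have := hdiag x
    nlinarith [sq_nonneg (f x)]
  rw [← Finset.mul_sum] at h4
  linarith

end Vale.Agent.Lib.P335.H48
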