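import Vale.Agent.Lib.P335.helper48.SwitchFacts

/-!
A `4`-set has exactly three perfect matchings at most, hence at most six ordered pairs of
distinct perfect matchings; consequently two graphs of `Ω_d` that differ by a switch have
transition probability at least `1 / (12 * C(n,4))`.
-/

namespace Vale.Agent.Lib.P335.H48

open Finset Vale.Agent.Lib.P335
open scoped Classical

variable {n : ℕ} {d : Fin n → ℕ}

/-- `{xy, zw}` is a perfect matching of `{x,y,z,w}`. -/
theorem perf_mk (x y z w : Fin n) (hxy : x ≠ y) (hxz : x ≠ z) (hxw : x ≠ w) (hyz : y ≠ z)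
    (hyw : y ≠ w) (hzw : z ≠ w) :
    ({s(x, y), s(z, w)} : Finset (Sym2 (Fin n))) ∈ perfMatchings ({x, y, z, w} : Finset (Fin n)) := by
  unfold perfMatchings
  rw [Finset.mem_filter, Finset.mem_powerset]
  refine ⟨?_, ?_, ?_⟩
  · intro f hf
    simp only [Finset.mem_insert, Finset.mem_singleton] at hf
    rcases hf with rfl | rfl
    · rw [Finset.mk_mem_sym2_iff]; simp
    · rw [Finset.mk_mem_sym2_iff]; simp
  · intro f hf
    simp only [Finset.mem_insert, Finset.mem_singleton] at hf
    rcases hf with rfl | rfl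
    · simpa using hxy
    · simpa using hzw
  · intro v hv
    simp only [Finset.mem_insert, Finset.mem_singleton] at hv
    rcases hv with rfl | rfl | rfl | rfl
    · refine ⟨s(v, y), ⟨by simp, by simp⟩, ?_⟩
      rintro f ⟨hf, hvf⟩
      simp only [Finset.mem_insert, Finset.mem_singleton] at hf
      rcases hf with rfl | rfl
      · rfl
      · simp only [Sym2.mem_iff] at hvf
        rcases hvf with h | h
        · exact absurd h hxz
        · exact absurd h hxw
    · refine ⟨s(x, v), ⟨by simp, by simp⟩, ?_⟩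
      rintro f ⟨hf, hvf⟩
      simp only [Finset.mem_insert, Finset.mem_singleton] at hf
      rcases hf with rfl | rfl
      · rfl
      · simp only [Sym2.mem_iff] at hvf
        rcases hvf with h | h
        · exact absurd h hyz
        · exact absurd h hyw
    · refine ⟨s(v, w), ⟨by simp, by simp⟩, ?_⟩
      rintro f ⟨hf, hvf⟩
      simp only [Finset.mem_insert, Finset.mem_singleton] at hf
      rcases hf with rfl | rfl
      · simp only [Sym2.mem_iff] at hvf
        rcases hvf with h | h
        · exact absurd h.symm hxz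
        · exact absurd h.symm hyz
      · rfl
    · refine ⟨s(z, v), ⟨by simp, by simp⟩, ?_⟩
      rintro f ⟨hf, hvf⟩
      simp only [Finset.mem_insert, Finset.mem_singleton] at hf
      rcases hf with rfl | rfl
      · simp only [Sym2.mem_iff] at hvf
        rcases hvf with h | h
        · exact absurd h.symm hxw
        · exact absurd h.symm hyw
      · rfl

theorem perf_partner_unique {S : Finset (Fin n)} {F : Finset (Sym2 (Fin n))}
    (hF : F ∈ perfMatchings S) {v a w : Fin n} (hv : v ∈ S) (ha : s(v, a) ∈ F)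
    (hw : s(v, w) ∈ F) : w = a := by
  obtain ⟨e, _, huniq⟩ := perf_uniq hF hv
  have h1 := huniq s(v, a) ⟨ha, Sym2.mem_mk_left v a⟩
  have h2 := huniq s(v, w) ⟨hw, Sym2.mem_mk_left v w⟩
  exact Sym2.congr_right.mp (h2.trans h1.symm)

/-- A perfect matching of `{a,x,y,z}` containing `ax` is `{ax, yz}`. -/
theorem perf_det (a x y z : Fin n) (hax : a ≠ x) (hay : a ≠ y) (haz : a ≠ z) (hxy : x ≠ y)
    (hxz : x ≠ z) (hyz : y ≠ z) {F : Finset (Sym2 (Fin n))}
    (hF : F ∈ perfMatchings ({a, x, y, z} : Finset (Fin n))) (h : s(a, x) ∈ F) :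
    F = {s(a, x), s(y, z)} := by
  have haS : a ∈ ({a, x, y, z} : Finset (Fin n)) := by simp
  have hxS : x ∈ ({a, x, y, z} : Finset (Fin n)) := by simp
  have hyS : y ∈ ({a, x, y, z} : Finset (Fin n)) := by simp
  have hzS : z ∈ ({a, x, y, z} : Finset (Fin n)) := by simp
  have hxa : s(x, a) ∈ F := by rw [Sym2.eq_swap]; exact h
  -- partner of y is z
  obtain ⟨w, hyw, hwF, _⟩ := perf_partner hF hyS
  have hwS : w ∈ ({a, x, y, z} : Finset (Fin n)) := perf_sub hF hwF w (Sym2.mem_mk_right y w)
  have hwz : w = z := by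
    simp only [Finset.mem_insert, Finset.mem_singleton] at hwS
    rcases hwS with rfl | rfl | rfl | rfl
    · -- s(y, a) ∈ F, so s(a, y) ∈ F, so y = x
      have : s(w, y) ∈ F := by rw [Sym2.eq_swap]; exact hwF
      exact absurd (perf_partner_unique hF haS h this) hxy.symm
    · have : s(w, y) ∈ F := by rw [Sym2.eq_swap]; exact hwF
      exact absurd (perf_partner_unique hF hxS hxa this) hay.symm
    · exact absurd rfl hyw
    · rfl
  subst hwz
  have hzy : s(w, y) ∈ F := by rw [Sym2.eq_swap]; exact hwF
  apply Finset.Subset.antisymm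
  · intro f hf
    induction f using Sym2.ind with
    | _ p q =>
      have hpS : p ∈ ({a, x, y, w} : Finset (Fin n)) := perf_sub hF hf p (Sym2.mem_mk_left p q)
      simp only [Finset.mem_insert, Finset.mem_singleton] at hpS ⊢
      rcases hpS with rfl | rfl | rfl | rfl
      · left; rw [perf_partner_unique hF haS h hf]
      · left; rw [perf_partner_unique hF hxS hxa hf, Sym2.eq_swap]
      · right; rw [perf_partner_unique hF hyS hwF hf]
      · right; rw [perf_partner_unique hF hzS hzy hf, Sym2.eq_swap]
  · intro f hf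
    simp only [Finset.mem_insert, Finset.mem_singleton] at hf
    rcases hf with rfl | rfl
    · exact h
    · exact hwF

theorem four_perm1 (a b c e : Fin n) : ({a, c, b, e} : Finset (Fin n)) = {a, b, c, e} := by
  rw [Finset.insert_comm c b]

theorem four_perm2 (a b c e : Fin n) : ({a, e, b, c} : Finset (Fin n)) = {a, b, c, e} := by
  rw [Finset.insert_comm e b, Finset.pair_comm e c]

theorem perfMatchings_card_le (S : Finset (Fin n)) (hS : S.card = 4) :
    (perfMatchings S).card ≤ 3 := by
  obtain ⟨a, b, c, e, hab, hac, hae, hbc, hbe, hce, rfl⟩ := Finset.card_eq_four.mp hS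
  have hsub : perfMatchings ({a, b, c, e} : Finset (Fin n)) ⊆
      {({s(a, b), s(c, e)} : Finset (Sym2 (Fin n))), {s(a, c), s(b, e)}, {s(a, e), s(b, c)}} := by
    intro F hF
    have haS : a ∈ ({a, b, c, e} : Finset (Fin n)) := by simp
    obtain ⟨x, hax, hxF, _⟩ := perf_partner hF haS
    have hxS : x ∈ ({a, b, c, e} : Finset (Fin n)) := perf_sub hF hxF x (Sym2.mem_mk_right a x)
    simp only [Finset.mem_insert, Finset.mem_singleton] at hxS ⊢
    rcases hxS with rfl | rfl | rfl | rfl
    · exact absurd rfl hax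
    · left
      exact perf_det a x c e hab hac hae hbc hbe hce hF hxF
    · right; left
      have hF2 : F ∈ perfMatchings ({a, x, b, e} : Finset (Fin n)) := by
        rw [four_perm1]; exact hF
      exact perf_det a x b e hac hab hae hbc.symm hce hbe hF2 hxF
    · right; right
      have hF2 : F ∈ perfMatchings ({a, x, b, c} : Finset (Fin n)) := by
        rw [four_perm2]; exact hF
      exact perf_det a x b c hae hab hac hbe.symm hce.symm hbc hF2 hxF
  exact le_trans (Finset.card_le_card hsub) Finset.card_le_three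

theorem matchingPairs_card_le (S : Finset (Fin n)) (hS : S.card = 4) :
    (matchingPairs S).card ≤ 6 := by
  have h3 := perfMatchings_card_le S hS
  have : matchingPairs S = (perfMatchings S).offDiag := by
    ext p
    unfold matchingPairs
    rw [Finset.mem_filter, Finset.mem_product, Finset.mem_offDiag]
    tauto
  rw [this, Finset.offDiag_card]
  have : (perfMatchings S).card * (perfMatchings S).card ≤ 3 * 3 := Nat.mul_le_mul h3 h3
  generalize (perfMatchings S).card = k at *
  interval_cases k <;> omega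

/-- `G'` is obtained from `G` by one switch: the disjoint edges `ab`, `ce` are replaced by
`ac`, `be`, which were absent. -/
def IsSwitch (G G' : SimpleGraph (Fin n)) : Prop :=
  ∃ a b c e : Fin n, a ≠ b ∧ a ≠ c ∧ a ≠ e ∧ b ≠ c ∧ b ≠ e ∧ c ≠ e ∧
    G.Adj a b ∧ G.Adj c e ∧ ¬ G.Adj a c ∧ ¬ G.Adj b e ∧
    G' = SimpleGraph.fromEdgeSet
      ((G.edgeSet \ ({s(a, b), s(c, e)} : Set (Sym2 (Fin n)))) ∪
        ({s(a, c), s(b, e)} : Set (Sym2 (Fin n))))

/-- A switch is realised by a `4`-set and an ordered pair of distinct perfect matchings. -/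
theorem isSwitch_data {G G' : SimpleGraph (Fin n)} (h : IsSwitch G G') :
    G ≠ G' ∧ ∃ S : Finset (Fin n), S.card = 4 ∧
      ∃ p ∈ matchingPairs S, switch G p.1 p.2 = G' := by
  obtain ⟨a, b, c, e, hab, hac, hae, hbc, hbe, hce, hGab, hGce, hGac, hGbe, hG'⟩ := h
  constructor
  · intro hEq
    have h1 : G'.Adj a c := by
      rw [hG', SimpleGraph.fromEdgeSet_adj]
      exact ⟨Or.inr (by simp), hac⟩
    rw [← hEq] at h1
    exact hGac h1
  · refine ⟨{a, b, c, e}, ?_, ({s(a, b), s(c, e)}, {s(a, c), s(b, e)}), ?_, ?_⟩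
    · rw [Finset.card_eq_four]
      exact ⟨a, b, c, e, hab, hac, hae, hbc, hbe, hce, rfl⟩
    · have hF := perf_mk a b c e hab hac hae hbc hbe hce
      have hF' : ({s(a, c), s(b, e)} : Finset (Sym2 (Fin n))) ∈
          perfMatchings ({a, b, c, e} : Finset (Fin n)) := by
        rw [← four_perm1]
        exact perf_mk a c b e hac hab hae hbc.symm hce hbe
      have hne : ({s(a, b), s(c, e)} : Finset (Sym2 (Fin n))) ≠ {s(a, c), s(b, e)} := by
        intro hEq
        have : s(a, b) ∈ ({s(a, c), s(b, e)} : Finset (Sym2 (Fin n))) := by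
          rw [← hEq]; simp
        simp only [Finset.mem_insert, Finset.mem_singleton, Sym2.eq_iff] at this
        rcases this with (⟨_, h⟩ | ⟨h, _⟩) | (⟨h, _⟩ | ⟨h, _⟩)
        · exact hbc h
        · exact hac h
        · exact hab h
        · exact hae h
      unfold matchingPairs
      rw [Finset.mem_filter, Finset.mem_product]
      exact ⟨⟨hF, hF'⟩, hne⟩
    · have hc : (∀ f ∈ ({s(a, b), s(c, e)} : Finset (Sym2 (Fin n))), f ∈ G.edgeSet) ∧
          (∀ f ∈ ({s(a, c), s(b, e)} : Finset (Sym2 (Fin n))), f ∉ G.edgeSet) := by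
        constructor
        · intro f hf
          simp only [Finset.mem_insert, Finset.mem_singleton] at hf
          rcases hf with rfl | rfl
          · exact hGab
          · exact hGce
        · intro f hf
          simp only [Finset.mem_insert, Finset.mem_singleton] at hf
          rcases hf with rfl | rfl
          · exact hGac
          · exact hGbe
      rw [switch_pos hc, hG', Finset.coe_pair, Finset.coe_pair]

theorem switchMatrix_ge_of_data (G G' : Omega n d) (hne : G ≠ G') (S : Finset (Fin n))
    (hS4 : S.card = 4) (p : Finset (Sym2 (Fin n)) × Finset (Sym2 (Fin n)))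
    (hmem : p ∈ matchingPairs S) (hsw : switch G.1 p.1 p.2 = G'.1) :
    1 / (12 * (n.choose 4 : ℝ)) ≤ switchMatrix n d G G' := by
  have hSmem : S ∈ (univ : Finset (Fin n)).powersetCard 4 := by
    rw [Finset.mem_powersetCard]; exact ⟨Finset.subset_univ _, hS4⟩
  have hcnt : (1 : ℝ) ≤ (((matchingPairs S).filter
      (fun p => switch G.1 p.1 p.2 = G'.1)).card : ℝ) := by
    have : 0 < ((matchingPairs S).filter (fun p => switch G.1 p.1 p.2 = G'.1)).card :=
      Finset.card_pos.mpr ⟨p, by rw [Finset.mem_filter]; exact ⟨hmem, hsw⟩⟩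
    exact_mod_cast this
  have hmp : ((matchingPairs S).card : ℝ) ≤ 6 := by exact_mod_cast matchingPairs_card_le S hS4
  have hmp0 : (0 : ℝ) < ((matchingPairs S).card : ℝ) := by
    have : 0 < (matchingPairs S).card := Finset.card_pos.mpr ⟨p, hmem⟩
    exact_mod_cast this
  have h6 : (1 / 6 : ℝ) ≤ 1 / ((matchingPairs S).card : ℝ) :=
    one_div_le_one_div_of_le hmp0 hmp
  have hSterm : (1 / 6 : ℝ) ≤ (1 / ((matchingPairs S).card : ℝ)) *
      (((matchingPairs S).filter (fun p => switch G.1 p.1 p.2 = G'.1)).card : ℝ) := by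
    calc (1 / 6 : ℝ) ≤ 1 / ((matchingPairs S).card : ℝ) * 1 := by linarith
      _ ≤ (1 / ((matchingPairs S).card : ℝ)) *
          (((matchingPairs S).filter (fun p => switch G.1 p.1 p.2 = G'.1)).card : ℝ) :=
        mul_le_mul_of_nonneg_left hcnt (by positivity)
  have hterm : (1 / 6 : ℝ) ≤ ∑ T ∈ (univ : Finset (Fin n)).powersetCard 4,
      (1 / ((matchingPairs T).card : ℝ)) *
        (((matchingPairs T).filter (fun p => switch G.1 p.1 p.2 = G'.1)).card : ℝ) := by
    refine le_trans hSterm ?_
    exact Finset.single_le_sum (s := (univ : Finset (Fin n)).powersetCard 4)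
      (f := fun T => (1 / ((matchingPairs T).card : ℝ)) *
        (((matchingPairs T).filter (fun p => switch G.1 p.1 p.2 = G'.1)).card : ℝ))
      (fun T _ => mul_nonneg (div_nonneg (by norm_num) (Nat.cast_nonneg _)) (Nat.cast_nonneg _))
      hSmem
  have hC : (0 : ℝ) ≤ 1 / 2 * (1 / (n.choose 4 : ℝ)) := by positivity
  have hval : switchMatrix n d G G' = 1 / 2 * (1 / (n.choose 4 : ℝ)) *
      ∑ T ∈ (univ : Finset (Fin n)).powersetCard 4,
      (1 / ((matchingPairs T).card : ℝ)) *
        (((matchingPairs T).filter (fun p => switch G.1 p.1 p.2 = G'.1)).card : ℝ) := by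
    unfold switchMatrix
    rw [if_neg hne, zero_add, card_four_sets_eq]
  rw [hval]
  calc 1 / (12 * (n.choose 4 : ℝ)) = 1 / 2 * (1 / (n.choose 4 : ℝ)) * (1 / 6) := by
        by_cases h0 : (n.choose 4 : ℝ) = 0
        · rw [h0]; simp
        · field_simp; ring
    _ ≤ _ := mul_le_mul_of_nonneg_left hterm hC

theorem switchMatrix_ge_of_isSwitch (G G' : Omega n d) (h : IsSwitch G.1 G'.1) :
    1 / (12 * (n.choose 4 : ℝ)) ≤ switchMatrix n d G G' := by
  obtain ⟨hne, S, hS4, p, hmem, hsw⟩ := isSwitch_data h
  exact switchMatrix_ge_of_data G G' (fun hEq => hne (congrArg Subtype.val hEq)) S hS4 p hmem hsw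

end Vale.Agent.Lib.P335.H48
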