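import Vale.Agent.Lib.P335.helper48.Generic
import Vale.Agent.Lib.P335.helper48.SwitchLower

/-!
From a Poincare inequality for the switch graph on `Ω_d` to a polynomial bound on the mixing
time of the switch chain.
-/

namespace Vale.Agent.Lib.P335.H48

open Finset Vale.Agent.Lib.P335
open scoped Classical

variable {n : ℕ} {d : Fin n → ℕ}

/-- Decay of the total variation distance under a Poincare inequality with constant `κ` for
the switch graph (each unordered switch is counted twice in the double sum). -/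
theorem tvDist_le_of_poincare (hn : 4 ≤ n) (κ : ℝ) (hκ : κ ≤ 24)
    (hP : ∀ f : Omega n d → ℝ, ∑ G, f G = 0 →
      κ * ∑ G, f G ^ 2 ≤ ∑ G, ∑ G', if IsSwitch G.1 G'.1 then (f G - f G') ^ 2 else 0)
    (t : ℕ) (G : Omega n d) :
    tvDist n d t G ≤ (1 / 2) * (Real.sqrt (Fintype.card (Omega n d)) *
      (1 - κ / (24 * (n.choose 4 : ℝ))) ^ t) := by
  have hCpos : (1 : ℝ) ≤ (n.choose 4 : ℝ) := by
    exact_mod_cast Nat.choose_pos hn
  have hs : ∀ x y : Omega n d, switchMatrix n d x y = switchMatrix n d y x := switchMatrix_symm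
  have hrow : ∀ x : Omega n d, ∑ y, switchMatrix n d x y = 1 := switchMatrix_row_sum hn
  have hpsd : ∀ f : Omega n d → ℝ, 0 ≤ bil (switchMatrix n d) f f :=
    bil_nonneg_of_lazy _ hs hrow switchMatrix_nonneg switchMatrix_diag_ge
  have hγ1 : κ / (24 * (n.choose 4 : ℝ)) ≤ 1 := by
    rw [div_le_one (by positivity)]
    nlinarith
  have hgap : ∀ f : Omega n d → ℝ, ∑ x, f x = 0 →
      bil (switchMatrix n d) f f ≤ (1 - κ / (24 * (n.choose 4 : ℝ))) * ∑ x, f x ^ 2 := by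
    intro f hf
    have hd := dirichlet (switchMatrix n d) hs hrow f
    have hlow : (1 / (12 * (n.choose 4 : ℝ))) *
        (∑ x : Omega n d, ∑ y : Omega n d, if IsSwitch x.1 y.1 then (f x - f y) ^ 2 else 0)
        ≤ ∑ x, ∑ y, switchMatrix n d x y * (f x - f y) ^ 2 := by
      rw [Finset.mul_sum]
      apply Finset.sum_le_sum; intro x _
      rw [Finset.mul_sum]
      apply Finset.sum_le_sum; intro y _
      split_ifs with h
      · exact mul_le_mul_of_nonneg_right (switchMatrix_ge_of_isSwitch x y h) (sq_nonneg _)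
      · rw [mul_zero]
        exact mul_nonneg (switchMatrix_nonneg x y) (sq_nonneg _)
    have hP' := hP f hf
    have h12 : (0 : ℝ) ≤ 1 / (12 * (n.choose 4 : ℝ)) := by positivity
    have h3 : (1 / (12 * (n.choose 4 : ℝ))) * (κ * ∑ G, f G ^ 2)
        ≤ ∑ x, ∑ y, switchMatrix n d x y * (f x - f y) ^ 2 :=
      le_trans (mul_le_mul_of_nonneg_left hP' h12) hlow
    have h4 : κ / (24 * (n.choose 4 : ℝ)) * ∑ x, f x ^ 2
        = (1 / 2) * ((1 / (12 * (n.choose 4 : ℝ))) * (κ * ∑ G, f G ^ 2)) := by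
      field_simp; ring
    linarith
  have := l1_le_of_poincare (switchMatrix n d) hs hrow hpsd (κ / (24 * (n.choose 4 : ℝ)))
    hγ1 hgap t G
  unfold tvDist
  exact mul_le_mul_of_nonneg_left this (by norm_num)

theorem card_Omega_le : Fintype.card (Omega n d) ≤ 2 ^ ((n + 1).choose 2) := by
  have h1 : Fintype.card (Omega n d) ≤ Fintype.card (Set (Sym2 (Fin n))) := by
    apply Fintype.card_le_of_injective (fun G : Omega n d => G.1.edgeSet)
    intro G G' h
    exact Subtype.ext (SimpleGraph.edgeSet_injective h)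
  rw [Fintype.card_set, Sym2.card, Fintype.card_fin] at h1
  exact h1

theorem pow_half (m : ℕ) (hm : 1 ≤ m) : (1 - 1 / (m : ℝ)) ^ m ≤ 1 / 2 := by
  have hm0 : (0 : ℝ) < (m : ℝ) := by exact_mod_cast hm
  set x : ℝ := 1 / (m : ℝ) with hx
  have hx0 : 0 < x := by positivity
  have hx1 : x ≤ 1 := by
    rw [hx, div_le_one hm0]; exact_mod_cast hm
  have hb : 1 + (m : ℝ) * x ≤ (1 + x) ^ m := one_add_mul_le_pow (by linarith) m
  have hmx : (m : ℝ) * x = 1 := by rw [hx]; field_simp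
  have h2 : (2 : ℝ) ≤ (1 + x) ^ m := by linarith
  have hprod : (1 - x) ^ m * (1 + x) ^ m ≤ 1 := by
    rw [← mul_pow]
    apply pow_le_one₀
    · nlinarith
    · nlinarith
  have h0 : 0 ≤ (1 - x) ^ m := pow_nonneg (by linarith) m
  nlinarith

/-- Main glue: a Poincare inequality with constant `4` for the switch graph on `Ω_d`
(that is, second eigenvalue of the switch Laplacian at least `2`) gives mixing within `n^6`
steps. -/
theorem mixing_of_poincare (hn : 4 ≤ n)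
    (hP : ∀ f : Omega n d → ℝ, ∑ G, f G = 0 →
      4 * ∑ G, f G ^ 2 ≤ ∑ G, ∑ G', if IsSwitch G.1 G'.1 then (f G - f G') ^ 2 else 0)
    (t : ℕ) (ht : n ^ 6 ≤ t) (G : Omega n d) : tvDist n d t G ≤ 1 / 4 := by
  have hmain := tvDist_le_of_poincare hn 4 (by norm_num) hP t G
  set C : ℕ := n.choose 4 with hC
  have hCpos : 1 ≤ C := Nat.choose_pos hn
  set m : ℕ := 6 * C with hm
  have hm1 : 1 ≤ m := by omega
  set M : ℕ := (n + 1).choose 2 with hM
  have hγ : (4 : ℝ) / (24 * (C : ℝ)) = 1 / (m : ℝ) := by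
    rw [hm]; push_cast
    have : (0 : ℝ) < (C : ℝ) := by exact_mod_cast hCpos
    field_simp; ring
  rw [hγ] at hmain
  -- numeric: m * (M + 1) ≤ n ^ 6
  have hnum : m * (M + 1) ≤ n ^ 6 := by
    have hCr : (C : ℝ) ≤ (n : ℝ) ^ 4 / 24 := by
      have := Nat.choose_le_pow_div (α := ℝ) 4 n
      simpa [Nat.factorial] using this
    have hMr : (M : ℝ) ≤ ((n : ℝ) + 1) ^ 2 / 2 := by
      have := Nat.choose_le_pow_div (α := ℝ) 2 (n + 1)
      simpa [Nat.factorial] using this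
    have hn4 : (4 : ℝ) ≤ (n : ℝ) := by exact_mod_cast hn
    have : ((m * (M + 1) : ℕ) : ℝ) ≤ ((n ^ 6 : ℕ) : ℝ) := by
      push_cast
      rw [hm]; push_cast
      have h1 : (6 : ℝ) * (C : ℝ) ≤ (n : ℝ) ^ 4 / 4 := by linarith
      have h2 : (M : ℝ) + 1 ≤ (n : ℝ) ^ 2 := by nlinarith
      have h3 : (0 : ℝ) ≤ (M : ℝ) + 1 := by positivity
      have h4 : (0 : ℝ) ≤ (n : ℝ) ^ 4 / 4 := by positivity
      calc (6 : ℝ) * (C : ℝ) * ((M : ℝ) + 1) ≤ (n : ℝ) ^ 4 / 4 * (n : ℝ) ^ 2 :=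
            mul_le_mul h1 h2 h3 h4
        _ ≤ (n : ℝ) ^ 6 := by nlinarith [pow_nonneg (by linarith : (0 : ℝ) ≤ (n : ℝ)) 6]
    exact_mod_cast this
  have hbase0 : (0 : ℝ) ≤ 1 - 1 / (m : ℝ) := by
    have : (1 : ℝ) / (m : ℝ) ≤ 1 := by
      rw [div_le_one (by exact_mod_cast hm1)]; exact_mod_cast hm1
    linarith
  have hbase1 : (1 - 1 / (m : ℝ)) ≤ 1 := by
    have : (0 : ℝ) ≤ 1 / (m : ℝ) := by positivity
    linarith
  have hpow : (1 - 1 / (m : ℝ)) ^ t ≤ (1 / 2 : ℝ) ^ (M + 1) := by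
    calc (1 - 1 / (m : ℝ)) ^ t ≤ (1 - 1 / (m : ℝ)) ^ (m * (M + 1)) :=
          pow_le_pow_of_le_one hbase0 hbase1 (le_trans hnum ht)
      _ = ((1 - 1 / (m : ℝ)) ^ m) ^ (M + 1) := by rw [pow_mul]
      _ ≤ (1 / 2 : ℝ) ^ (M + 1) :=
          pow_le_pow_left₀ (pow_nonneg hbase0 m) (pow_half m hm1) (M + 1)
  have hN : (Fintype.card (Omega n d) : ℝ) ≤ (2 : ℝ) ^ M := by
    exact_mod_cast (card_Omega_le (n := n) (d := d))
  have hN1 : (1 : ℝ) ≤ (Fintype.card (Omega n d) : ℝ) := by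
    have : 0 < Fintype.card (Omega n d) := Fintype.card_pos_iff.mpr ⟨G⟩
    exact_mod_cast this
  have hsqrt : Real.sqrt (Fintype.card (Omega n d)) ≤ (2 : ℝ) ^ M := by
    refine le_trans ?_ hN
    rw [Real.sqrt_le_iff]
    refine ⟨by linarith, ?_⟩
    nlinarith
  have hfin : Real.sqrt (Fintype.card (Omega n d)) * (1 - 1 / (m : ℝ)) ^ t ≤ 1 / 2 := by
    calc Real.sqrt (Fintype.card (Omega n d)) * (1 - 1 / (m : ℝ)) ^ t
        ≤ (2 : ℝ) ^ M * (1 / 2 : ℝ) ^ (M + 1) :=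
          mul_le_mul hsqrt hpow (pow_nonneg hbase0 t) (by positivity)
      _ = 1 / 2 := by
          rw [pow_succ, ← mul_assoc, ← mul_pow]
          norm_num
  linarith

end Vale.Agent.Lib.P335.H48
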