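import Vale.Agent.Lib.P335.BridgeDefs
import Vale.Agent.Lib.P335.helper48.Mixing

/-!
The mixing-time glue stated with the switch relation `Bridge.GSwitch`.
-/

namespace Vale.Agent.Lib.P335.H48

open Finset Vale.Agent.Lib.P335
open scoped Classical

variable {n : ℕ} {d : Fin n → ℕ}

theorem gswitch_iff (G G' : SimpleGraph (Fin n)) : Bridge.GSwitch G G' ↔ IsSwitch G G' :=
  Iff.rfl

/-- A Poincare inequality with constant `4` for the switch relation `Bridge.GSwitch` on `Ω_d`
gives total variation distance at most `1/4` after `n^6` steps of the switch chain. -/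
theorem mixing_of_gswitch_poincare (hn : 4 ≤ n)
    (hP : ∀ f : Omega n d → ℝ, ∑ G, f G = 0 →
      4 * ∑ G, f G ^ 2 ≤
        ∑ G, ∑ G', if Bridge.GSwitch G.1 G'.1 then (f G - f G') ^ 2 else 0)
    (t : ℕ) (ht : n ^ 6 ≤ t) (G : Omega n d) : tvDist n d t G ≤ 1 / 4 := by
  refine mixing_of_poincare hn ?_ t ht G
  intro f hf
  refine le_trans (hP f hf) (le_of_eq ?_)
  apply Finset.sum_congr rfl; intro x _
  apply Finset.sum_congr rfl; intro y _
  by_cases h : Bridge.GSwitch x.1 y.1
  · rw [if_pos h, if_pos ((gswitch_iff _ _).mp h)]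
  · rw [if_neg h, if_neg (fun h' => h ((gswitch_iff _ _).mpr h'))]

end Vale.Agent.Lib.P335.H48
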