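import Mathlib
import Vale.Agent.Lib.P335.Defs
import Vale.Agent.Lib.P335.helper26.BipDefs
import Vale.Agent.Lib.P335.helper26.Abstract

/-!
P335, graph case: the class of graphs that agree with a given graph outside a vertex triple
is a three-row margin system with one virtual column.

For a triple `T = {φ 0, φ 1, φ 2}` of vertices the matrix of a graph `G` has the rows
`gmat φ G i = (neighbours of φ i outside T) ∪ ({φ 0} if the pair opposite to φ i is a non-edge)`.
On the class of the graphs with prescribed degrees that agree with `G₀` outside `T` this is a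
bijection onto the margin system `Bip.Om 3 n r c` with the margins of the matrix of `G₀`, and
forgetting two vertices of `T` corresponds to forgetting the two rows.  Hence the three-row
inequality transfers to vertex triples (`graph_triple`).
-/

namespace Vale.Agent.Lib.P335.H48G

open Finset
open scoped Classical
open Vale.Agent.Lib.P335 Vale.Agent.Lib.P335.Bip

section generic

/-- Conditional expectations only depend on the partition into fibres. -/
theorem cexp_congr_ker {Ω K K' : Type*} [Fintype Ω] [DecidableEq K] [DecidableEq K']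
    (κ : Ω → K) (κ' : Ω → K') (h : ∀ x y, κ x = κ y ↔ κ' x = κ' y) : cexp κ = cexp κ' := by
  apply LinearMap.ext
  intro f
  funext x
  rw [cexp_apply, cexp_apply]
  have hfil : univ.filter (fun y => κ y = κ x) = univ.filter (fun y => κ' y = κ' x) := by
    apply Finset.filter_congr
    intro y _
    exact h y x
  rw [hfil]

/-- Transfer of a conditional expectation through an injection `ι` whose image contains the
fibre of `ι z`. -/
theorem cexp_transfer {Ω Z K M : Type*} [Fintype Ω] [Fintype Z] [DecidableEq K] [DecidableEq M]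
    (κ : Ω → K) (μ : Z → M) (ι : Z → Ω) (hinj : Function.Injective ι) (z : Z)
    (hfib : ∀ y, κ y = κ (ι z) → ∃ z', ι z' = y)
    (hcompat : ∀ z', κ (ι z') = κ (ι z) ↔ μ z' = μ z) (f : Ω → ℝ) :
    cexp κ f (ι z) = cexp μ (fun z' => f (ι z')) z := by
  rw [cexp_apply, cexp_apply]
  have hfil : univ.filter (fun y => κ y = κ (ι z))
      = (univ.filter (fun z' => μ z' = μ z)).image ι := by
    ext y
    simp only [mem_filter, mem_univ, true_and, mem_image]
    constructor
    · intro hy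
      obtain ⟨z', rfl⟩ := hfib y hy
      exact ⟨z', (hcompat z').mp hy, rfl⟩
    · rintro ⟨z', hz', rfl⟩
      exact (hcompat z').mpr hz'
  rw [hfil, Finset.sum_image (fun a _ b _ h => hinj h), Finset.card_image_of_injective _ hinj]

/-- An inequality between two sums follows from the inequalities on every class. -/
theorem sum_le_sum_of_classes {Ω KT : Type*} [Fintype Ω] [DecidableEq KT] (κT : Ω → KT)
    (H1 H2 : Ω → ℝ)
    (h : ∀ x0 : Ω, ∑ y ∈ univ.filter (fun y => κT y = κT x0), H1 y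
        ≤ ∑ y ∈ univ.filter (fun y => κT y = κT x0), H2 y) :
    ∑ x, H1 x ≤ ∑ x, H2 x := by
  have hmaps : ∀ x ∈ (univ : Finset Ω), κT x ∈ univ.image κT :=
    fun x _ => mem_image_of_mem _ (mem_univ x)
  rw [← Finset.sum_fiberwise_of_maps_to hmaps H1, ← Finset.sum_fiberwise_of_maps_to hmaps H2]
  apply Finset.sum_le_sum
  intro μ hμ
  obtain ⟨x0, -, rfl⟩ := mem_image.mp hμ
  exact h x0

/-- A sum over a class is a sum over the parametrising type. -/
theorem sum_class {Ω Z KT : Type*} [Fintype Ω] [Fintype Z] [DecidableEq KT] (κT : Ω → KT)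
    (ι : Z → Ω) (hinj : Function.Injective ι) (x0 : Ω)
    (himg : ∀ y, κT y = κT x0 ↔ ∃ z, ι z = y) (F : Ω → ℝ) :
    ∑ y ∈ univ.filter (fun y => κT y = κT x0), F y = ∑ z, F (ι z) := by
  have hfil : univ.filter (fun y => κT y = κT x0) = univ.image ι := by
    ext y
    simp only [mem_filter, mem_univ, true_and, mem_image]
    exact himg y
  rw [hfil, Finset.sum_image (fun a _ b _ h => hinj h)]

end generic

section triple

variable {n : ℕ}

theorem fin3_a : ∀ i : Fin 3, i + 1 ≠ i + 2 := by decide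

theorem fin3_b : ∀ i i' : Fin 3, i + 2 = i' + 1 → i + 1 = i' + 2 → False := by decide

theorem fin3_c : ∀ i i' : Fin 3, i + 1 = i' + 1 → i = i' := by decide

theorem fin3_d : ∀ j k : Fin 3, j ≠ k →
    ∃ i, (j = i + 1 ∧ k = i + 2) ∨ (j = i + 2 ∧ k = i + 1) := by decide

theorem fin3_e : ∀ i j : Fin 3, j = i ∨ j = i + 1 ∨ j = i + 2 := by decide

theorem fin3_f : ∀ i : Fin 3, i + 1 ≠ i ∧ i + 2 ≠ i := by decide

/-- `b` is not a vertex of the triple. -/
def Out (φ : Fin 3 ↪ Fin n) (b : Fin n) : Prop := ∀ k, φ k ≠ b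

theorem out_or (φ : Fin 3 ↪ Fin n) (b : Fin n) : Out φ b ∨ ∃ k, b = φ k := by
  by_cases h : ∃ k, b = φ k
  · exact Or.inr h
  · left
    intro k hk
    exact h ⟨k, hk.symm⟩

/-- The matrix of a graph relative to the triple `φ`: row `i` consists of the neighbours of
`φ i` outside the triple, and of the virtual column `φ 0` when the pair opposite to `φ i` is
not an edge. -/
noncomputable def gmat (φ : Fin 3 ↪ Fin n) (G : SimpleGraph (Fin n)) : Mat 3 n :=
  fun i => (univ.filter (fun b => Out φ b ∧ G.Adj (φ i) b)) ∪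
    (if G.Adj (φ (i + 1)) (φ (i + 2)) then ∅ else {φ 0})

theorem mem_gmat (φ : Fin 3 ↪ Fin n) (G : SimpleGraph (Fin n)) (i : Fin 3) (b : Fin n) :
    b ∈ gmat φ G i ↔
      (Out φ b ∧ G.Adj (φ i) b) ∨ (b = φ 0 ∧ ¬ G.Adj (φ (i + 1)) (φ (i + 2))) := by
  unfold gmat
  rw [mem_union, mem_filter]
  by_cases h : G.Adj (φ (i + 1)) (φ (i + 2))
  · simp [h]
  · simp [h]

/-- The relation generating the graph of a matrix. -/
def grel (φ : Fin 3 ↪ Fin n) (G₀ : SimpleGraph (Fin n)) (z : Mat 3 n) (a b : Fin n) : Prop :=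
  (Out φ a ∧ Out φ b ∧ G₀.Adj a b) ∨ (∃ i, a = φ i ∧ Out φ b ∧ b ∈ z i) ∨
    (∃ i, a = φ (i + 1) ∧ b = φ (i + 2) ∧ φ 0 ∉ z i)

/-- The graph of a matrix: outside the triple it is `G₀`, the neighbours of `φ i` outside the
triple are given by row `i`, and the pair opposite to `φ i` is an edge iff the virtual column
`φ 0` is absent from row `i`. -/
def ggraph (φ : Fin 3 ↪ Fin n) (G₀ : SimpleGraph (Fin n)) (z : Mat 3 n) : SimpleGraph (Fin n) :=
  SimpleGraph.fromRel (grel φ G₀ z)

theorem ggraph_adj (φ : Fin 3 ↪ Fin n) (G₀ : SimpleGraph (Fin n)) (z : Mat 3 n) (a b : Fin n) :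
    (ggraph φ G₀ z).Adj a b ↔ a ≠ b ∧ (grel φ G₀ z a b ∨ grel φ G₀ z b a) :=
  SimpleGraph.fromRel_adj _ _ _

theorem adj_out_out (φ : Fin 3 ↪ Fin n) (G₀ : SimpleGraph (Fin n)) (z : Mat 3 n) {a b : Fin n}
    (ha : Out φ a) (hb : Out φ b) : (ggraph φ G₀ z).Adj a b ↔ G₀.Adj a b := by
  rw [ggraph_adj]
  constructor
  · rintro ⟨-, h | h⟩
    · rcases h with h | ⟨i, rfl, -⟩ | ⟨i, rfl, -⟩
      · exact h.2.2
      · exact absurd rfl (ha i)
      · exact absurd rfl (ha (i + 1))
    · rcases h with h | ⟨i, rfl, -⟩ | ⟨i, rfl, -⟩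
      · exact h.2.2.symm
      · exact absurd rfl (hb i)
      · exact absurd rfl (hb (i + 1))
  · intro h
    exact ⟨h.ne, Or.inl (Or.inl ⟨ha, hb, h⟩)⟩

theorem adj_in_out (φ : Fin 3 ↪ Fin n) (G₀ : SimpleGraph (Fin n)) (z : Mat 3 n) (i : Fin 3)
    {b : Fin n} (hb : Out φ b) : (ggraph φ G₀ z).Adj (φ i) b ↔ b ∈ z i := by
  rw [ggraph_adj]
  constructor
  · rintro ⟨-, h | h⟩
    · rcases h with h | ⟨i', hi', -, hmem⟩ | ⟨i', -, rfl, -⟩
      · exact absurd rfl (h.1 i)
      · have := φ.injective hi'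
        subst this
        exact hmem
      · exact absurd rfl (hb (i' + 2))
    · rcases h with h | ⟨i', rfl, -⟩ | ⟨i', rfl, -⟩
      · exact absurd rfl (h.2.1 i)
      · exact absurd rfl (hb i')
      · exact absurd rfl (hb (i' + 1))
  · intro h
    exact ⟨fun e => hb i e, Or.inl (Or.inr (Or.inl ⟨i, rfl, hb, h⟩))⟩

theorem adj_in_in (φ : Fin 3 ↪ Fin n) (G₀ : SimpleGraph (Fin n)) (z : Mat 3 n) (i : Fin 3) :
    (ggraph φ G₀ z).Adj (φ (i + 1)) (φ (i + 2)) ↔ φ 0 ∉ z i := by
  rw [ggraph_adj]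
  constructor
  · rintro ⟨-, h | h⟩
    · rcases h with h | ⟨i', -, hout, -⟩ | ⟨i', h1, -, h3⟩
      · exact absurd rfl (h.1 (i + 1))
      · exact absurd rfl (hout (i + 2))
      · have e1 := fin3_c i i' (φ.injective h1)
        subst e1
        exact h3
    · rcases h with h | ⟨i', -, hout, -⟩ | ⟨i', h1, h2, -⟩
      · exact absurd rfl (h.1 (i + 2))
      · exact absurd rfl (hout (i + 1))
      · exact absurd (φ.injective h2) (fun e2 => fin3_b i i' (φ.injective h1) e2)
  · intro h
    exact ⟨fun e => fin3_a i (φ.injective e), Or.inl (Or.inr (Or.inr ⟨i, rfl, rfl, h⟩))⟩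

/-- A matrix is valid if its rows avoid the columns `φ 1` and `φ 2`. -/
def Valid (φ : Fin 3 ↪ Fin n) (z : Mat 3 n) : Prop := ∀ i, φ 1 ∉ z i ∧ φ 2 ∉ z i

theorem valid_gmat (φ : Fin 3 ↪ Fin n) (G : SimpleGraph (Fin n)) : Valid φ (gmat φ G) := by
  intro i
  constructor
  · rw [mem_gmat]
    rintro (⟨h, -⟩ | ⟨h, -⟩)
    · exact h 1 rfl
    · exact absurd (φ.injective h) (by decide)
  · rw [mem_gmat]
    rintro (⟨h, -⟩ | ⟨h, -⟩)
    · exact h 2 rfl
    · exact absurd (φ.injective h) (by decide)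

theorem valid_mem (φ : Fin 3 ↪ Fin n) {z : Mat 3 n} (hz : Valid φ z) {i : Fin 3} {b : Fin n}
    (hb : b ∈ z i) : Out φ b ∨ b = φ 0 := by
  rcases out_or φ b with h | ⟨k, rfl⟩
  · exact Or.inl h
  · right
    fin_cases k
    · rfl
    · exact absurd hb (hz i).1
    · exact absurd hb (hz i).2

/-- The matrix of the graph of a valid matrix is the matrix. -/
theorem gmat_ggraph (φ : Fin 3 ↪ Fin n) (G₀ : SimpleGraph (Fin n)) {z : Mat 3 n}
    (hz : Valid φ z) : gmat φ (ggraph φ G₀ z) = z := by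
  funext i
  ext b
  rw [mem_gmat, adj_in_in]
  constructor
  · rintro (⟨h1, h2⟩ | ⟨rfl, h2⟩)
    · exact (adj_in_out φ G₀ z i h1).mp h2
    · exact not_not.mp h2
  · intro hb
    rcases valid_mem φ hz hb with h | rfl
    · exact Or.inl ⟨h, (adj_in_out φ G₀ z i h).mpr hb⟩
    · exact Or.inr ⟨rfl, not_not.mpr hb⟩

/-- The graph of the matrix of `G` is `G`, when `G` agrees with `G₀` outside the triple. -/
theorem ggraph_gmat (φ : Fin 3 ↪ Fin n) (G₀ G : SimpleGraph (Fin n))
    (hG : ∀ a b, Out φ a → Out φ b → (G.Adj a b ↔ G₀.Adj a b)) :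
    ggraph φ G₀ (gmat φ G) = G := by
  ext a b
  rcases out_or φ a with ha | ⟨j, rfl⟩
  · rcases out_or φ b with hb | ⟨k, rfl⟩
    · rw [adj_out_out φ G₀ _ ha hb, hG a b ha hb]
    · rw [SimpleGraph.adj_comm, adj_in_out φ G₀ _ k ha, mem_gmat, SimpleGraph.adj_comm]
      constructor
      · rintro (⟨-, h⟩ | ⟨rfl, -⟩)
        · exact h
        · exact absurd rfl (ha 0)
      · intro h
        exact Or.inl ⟨ha, h⟩
  · rcases out_or φ b with hb | ⟨k, rfl⟩
    · rw [adj_in_out φ G₀ _ j hb, mem_gmat]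
      constructor
      · rintro (⟨-, h⟩ | ⟨rfl, -⟩)
        · exact h
        · exact absurd rfl (hb 0)
      · intro h
        exact Or.inl ⟨hb, h⟩
    · by_cases hjk : j = k
      · subst hjk
        simp
      · obtain ⟨i, ⟨rfl, rfl⟩ | ⟨rfl, rfl⟩⟩ := fin3_d j k hjk
        · rw [adj_in_in, mem_gmat]
          constructor
          · intro h
            by_contra hcon
            exact h (Or.inr ⟨rfl, hcon⟩)
          · rintro h (⟨h1, -⟩ | ⟨-, h2⟩)
            · exact h1 0 rfl
            · exact h2 h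
        · rw [SimpleGraph.adj_comm, adj_in_in, mem_gmat]
          constructor
          · intro h
            by_contra hcon
            exact h (Or.inr ⟨rfl, fun h' => hcon h'.symm⟩)
          · rintro h (⟨h1, -⟩ | ⟨-, h2⟩)
            · exact h1 0 rfl
            · exact h2 h.symm

theorem degree_eq_card_filter (G : SimpleGraph (Fin n)) (v : Fin n)
    [Fintype (G.neighborSet v)] :
    G.degree v = (univ.filter (fun w => G.Adj v w)).card := by
  unfold SimpleGraph.degree
  congr 1
  ext w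
  simp [SimpleGraph.mem_neighborFinset]

/-- Double counting of the entries of a matrix. -/
theorem sum_card_eq_sum_colSum {m : ℕ} (z : Mat m n) :
    ∑ i, (z i).card = ∑ j, colSum z j := by
  have h1 : ∀ i, (z i).card = ∑ j, if j ∈ z i then 1 else 0 := by
    intro i
    rw [← Finset.card_filter]
    congr 1
    ext j
    simp
  have h2 : ∀ j, colSum z j = ∑ i, if j ∈ z i then 1 else 0 := by
    intro j
    unfold colSum
    rw [Finset.card_filter]
  simp only [h1, h2]
  exact Finset.sum_comm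

theorem colSum_eq_zero_iff {m : ℕ} (z : Mat m n) (j : Fin n) :
    colSum z j = 0 ↔ ∀ i, j ∉ z i := by
  unfold colSum
  rw [Finset.card_eq_zero, Finset.filter_eq_empty_iff]
  simp

/-- Degree of a vertex outside the triple in the graph of a matrix. -/
theorem card_adj_out (φ : Fin 3 ↪ Fin n) (G₀ : SimpleGraph (Fin n)) (z : Mat 3 n) {b : Fin n}
    (hb : Out φ b) :
    (univ.filter (fun a => (ggraph φ G₀ z).Adj b a)).card
      = (univ.filter (fun a => Out φ a ∧ G₀.Adj b a)).card + colSum z b := by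
  have hsplit : univ.filter (fun a => (ggraph φ G₀ z).Adj b a)
      = (univ.filter (fun a => Out φ a ∧ G₀.Adj b a)) ∪ (univ.filter (fun i => b ∈ z i)).map φ := by
    ext a
    simp only [mem_filter, mem_univ, true_and, mem_union, mem_map]
    rcases out_or φ a with ha | ⟨k, rfl⟩
    · rw [adj_out_out φ G₀ z hb ha]
      constructor
      · intro h
        exact Or.inl ⟨ha, h⟩
      · rintro (⟨-, h⟩ | ⟨k, -, rfl⟩)
        · exact h
        · exact absurd rfl (ha k)
    · rw [SimpleGraph.adj_comm, adj_in_out φ G₀ z k hb]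
      constructor
      · intro h
        exact Or.inr ⟨k, h, rfl⟩
      · rintro (⟨h, -⟩ | ⟨k', h, e⟩)
        · exact absurd rfl (h k)
        · have := φ.injective e
          subst this
          exact h
  rw [hsplit, card_union_of_disjoint, card_map]
  · unfold colSum
    congr
  · rw [Finset.disjoint_left]
    intro a ha ha'
    simp only [mem_filter, mem_univ, true_and, mem_map] at ha ha'
    obtain ⟨k, -, rfl⟩ := ha'
    exact ha.1 k rfl

theorem fin3_univ : ∀ i j k : Fin 3, i ≠ j → i ≠ k → j ≠ k → (univ : Finset (Fin 3)) = {i, j, k} := by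
  decide

theorem fin3_count (p q : Fin 3 → Prop) (i j k : Fin 3) (hij : i ≠ j) (hik : i ≠ k) (hjk : j ≠ k)
    (h0 : ¬ q i) (h1 : q j ↔ ¬ p k) (h2 : q k ↔ ¬ p j) :
    (univ.filter q).card + (univ.filter p).card = 2 + (if p i then 1 else 0) := by
  have hsum : ∀ g : Fin 3 → ℕ, ∑ x, g x = g i + g j + g k := by
    intro g
    rw [fin3_univ i j k hij hik hjk, Finset.sum_insert (by simp [hij, hik]),
      Finset.sum_insert (by simp [hjk]), Finset.sum_singleton]
    ring
  rw [Finset.card_filter, Finset.card_filter, hsum, hsum]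
  by_cases a : p i <;> by_cases b : p j <;> by_cases c : p k <;> simp [a, b, c, h0, h1, h2]

theorem fin3_g : ∀ i : Fin 3,
    i + 2 + 1 = i ∧ i + 2 + 2 = i + 1 ∧ i + 1 + 1 = i + 2 ∧ i + 1 + 2 = i := by decide

theorem adj_next (φ : Fin 3 ↪ Fin n) (G₀ : SimpleGraph (Fin n)) (z : Mat 3 n) (i : Fin 3) :
    (ggraph φ G₀ z).Adj (φ i) (φ (i + 1)) ↔ φ 0 ∉ z (i + 2) := by
  have h := adj_in_in φ G₀ z (i + 2)
  rw [(fin3_g i).1, (fin3_g i).2.1] at h
  exact h

theorem adj_prev (φ : Fin 3 ↪ Fin n) (G₀ : SimpleGraph (Fin n)) (z : Mat 3 n) (i : Fin 3) :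
    (ggraph φ G₀ z).Adj (φ i) (φ (i + 2)) ↔ φ 0 ∉ z (i + 1) := by
  have h := adj_in_in φ G₀ z (i + 1)
  rw [(fin3_g i).2.2.1, (fin3_g i).2.2.2, SimpleGraph.adj_comm] at h
  exact h

/-- Degree of a vertex of the triple in the graph of a valid matrix. -/
theorem card_adj_in (φ : Fin 3 ↪ Fin n) (G₀ : SimpleGraph (Fin n)) {z : Mat 3 n}
    (hz : Valid φ z) (i : Fin 3) :
    (univ.filter (fun a => (ggraph φ G₀ z).Adj (φ i) a)).card + colSum z (φ 0)
      = (z i).card + 2 := by
  have hsplit : univ.filter (fun a => (ggraph φ G₀ z).Adj (φ i) a)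
      = (z i).erase (φ 0) ∪
        (univ.filter (fun k => (ggraph φ G₀ z).Adj (φ i) (φ k))).map φ := by
    ext a
    simp only [mem_filter, mem_univ, true_and, mem_union, mem_map, mem_erase]
    rcases out_or φ a with ha | ⟨k, rfl⟩
    · rw [adj_in_out φ G₀ z i ha]
      constructor
      · intro h
        exact Or.inl ⟨fun e => ha 0 e.symm, h⟩
      · rintro (⟨-, h⟩ | ⟨k, -, rfl⟩)
        · exact h
        · exact absurd rfl (ha k)
    · constructor
      · intro h
        exact Or.inr ⟨k, h, rfl⟩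
      · rintro (⟨h1, h2⟩ | ⟨k', h, e⟩)
        · rcases valid_mem φ hz h2 with h3 | h3
          · exact absurd rfl (h3 k)
          · exact absurd h3 h1
        · have := φ.injective e
          subst this
          exact h
  have hdisj : Disjoint ((z i).erase (φ 0))
      ((univ.filter (fun k => (ggraph φ G₀ z).Adj (φ i) (φ k))).map φ) := by
    rw [Finset.disjoint_left]
    intro a ha ha'
    simp only [mem_filter, mem_univ, true_and, mem_map, mem_erase] at ha ha'
    obtain ⟨k, -, rfl⟩ := ha'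
    rcases valid_mem φ hz ha.2 with h3 | h3
    · exact h3 k rfl
    · exact ha.1 h3
  have hcount : (univ.filter (fun k => (ggraph φ G₀ z).Adj (φ i) (φ k))).card + colSum z (φ 0)
      = 2 + (if φ 0 ∈ z i then 1 else 0) := by
    unfold colSum
    convert fin3_count (fun k => φ 0 ∈ z k) (fun k => (ggraph φ G₀ z).Adj (φ i) (φ k))
      i (i + 1) (i + 2) (fun e => (fin3_f i).1 e.symm) (fun e => (fin3_f i).2 e.symm) (fin3_a i)
      (by simp) (adj_next φ G₀ z i) (adj_prev φ G₀ z i)
  rw [hsplit, card_union_of_disjoint hdisj, card_map]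
  by_cases h0 : φ 0 ∈ z i
  · rw [if_pos h0] at hcount
    rw [Finset.card_erase_of_mem h0]
    have hpos : 0 < (z i).card := Finset.card_pos.mpr ⟨_, h0⟩
    omega
  · rw [if_neg h0] at hcount
    rw [Finset.erase_eq_of_notMem h0]
    omega

theorem fin3_h : ∀ k : Fin 3, k = 0 ∨ k = 1 ∨ k = 2 := by decide

theorem pair_compl : ∀ q : Finset (Fin 3), q.card = 2 → ∀ l l', l ∉ q → l' ∉ q → l = l' := by
  decide

theorem mask_eq_iff {m : ℕ} (p : Finset (Fin m)) (x y : Mat m n) :
    mask p x = mask p y ↔ ∀ i, i ∉ p → x i = y i := by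
  constructor
  · intro h i hi
    have h1 := congrFun h i
    simp only [mask, hi, if_false] at h1
    exact h1
  · intro h
    funext i
    by_cases hi : i ∈ p
    · simp only [mask, hi, if_true]
    · simp only [mask, hi, if_false]
      exact h i hi

variable {d : Fin n → ℕ}

theorem card_adj_eq (H : Omega n d) (v : Fin n) :
    (univ.filter (fun w => H.1.Adj v w)).card = d v := by
  rw [← degree_eq_card_filter]
  exact H.2 v

theorem colSum_gmat_12 (φ : Fin 3 ↪ Fin n) (H : SimpleGraph (Fin n)) :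
    colSum (gmat φ H) (φ 1) = 0 ∧ colSum (gmat φ H) (φ 2) = 0 := by
  constructor
  · rw [colSum_eq_zero_iff]
    exact fun i => (valid_gmat φ H i).1
  · rw [colSum_eq_zero_iff]
    exact fun i => (valid_gmat φ H i).2

/-- The matrices of the graphs in the class of `G₀` have the margins of the matrix of `G₀`. -/
theorem margins_of_class (φ : Fin 3 ↪ Fin n) (G₀ G : Omega n d)
    (hG : ∀ a b, Out φ a → Out φ b → (G.1.Adj a b ↔ G₀.1.Adj a b)) :
    (∀ i, (gmat φ G.1 i).card = (gmat φ G₀.1 i).card) ∧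
      ∀ j, colSum (gmat φ G.1) j = colSum (gmat φ G₀.1) j := by
  have e : ggraph φ G₀.1 (gmat φ G.1) = G.1 := ggraph_gmat φ G₀.1 G.1 hG
  have e₀ : ggraph φ G₀.1 (gmat φ G₀.1) = G₀.1 :=
    ggraph_gmat φ G₀.1 G₀.1 (fun _ _ _ _ => Iff.rfl)
  have hv := valid_gmat φ G.1
  have hv₀ := valid_gmat φ G₀.1
  have hout : ∀ b, Out φ b → colSum (gmat φ G.1) b = colSum (gmat φ G₀.1) b := by
    intro b hb
    have h1 := card_adj_out φ G₀.1 (gmat φ G.1) hb
    have h2 := card_adj_out φ G₀.1 (gmat φ G₀.1) hb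
    rw [e, card_adj_eq G b] at h1
    rw [e₀, card_adj_eq G₀ b] at h2
    omega
  have hne0 : ∀ j, j ≠ φ 0 → colSum (gmat φ G.1) j = colSum (gmat φ G₀.1) j := by
    intro j hj
    rcases out_or φ j with h | ⟨k, rfl⟩
    · exact hout j h
    · rcases fin3_h k with rfl | rfl | rfl
      · exact absurd rfl hj
      · rw [(colSum_gmat_12 φ G.1).1, (colSum_gmat_12 φ G₀.1).1]
      · rw [(colSum_gmat_12 φ G.1).2, (colSum_gmat_12 φ G₀.1).2]
  have hin : ∀ i, d (φ i) + colSum (gmat φ G.1) (φ 0) = (gmat φ G.1 i).card + 2 := by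
    intro i
    have h := card_adj_in φ G₀.1 hv i
    rw [e, card_adj_eq G (φ i)] at h
    exact h
  have hin₀ : ∀ i, d (φ i) + colSum (gmat φ G₀.1) (φ 0) = (gmat φ G₀.1 i).card + 2 := by
    intro i
    have h := card_adj_in φ G₀.1 hv₀ i
    rw [e₀, card_adj_eq G₀ (φ i)] at h
    exact h
  have hs := sum_card_eq_sum_colSum (gmat φ G.1)
  have hs₀ := sum_card_eq_sum_colSum (gmat φ G₀.1)
  rw [Fin.sum_univ_three, ← Finset.add_sum_erase univ _ (mem_univ (φ 0))] at hs hs₀
  have hX : ∑ j ∈ univ.erase (φ 0), colSum (gmat φ G.1) j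
      = ∑ j ∈ univ.erase (φ 0), colSum (gmat φ G₀.1) j :=
    Finset.sum_congr rfl (fun j hj => hne0 j (Finset.ne_of_mem_erase hj))
  have h0 : colSum (gmat φ G.1) (φ 0) = colSum (gmat φ G₀.1) (φ 0) := by
    have a0 := hin 0
    have a1 := hin 1
    have a2 := hin 2
    have b0 := hin₀ 0
    have b1 := hin₀ 1
    have b2 := hin₀ 2
    omega
  refine ⟨fun i => ?_, fun j => ?_⟩
  · have a := hin i
    have b := hin₀ i
    omega
  · by_cases hj : j = φ 0
    · rw [hj]
      exact h0
    · exact hne0 j hj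

theorem valid_of_om (φ : Fin 3 ↪ Fin n) (G₀ : SimpleGraph (Fin n))
    (z : Om 3 n (fun i => (gmat φ G₀ i).card) (colSum (gmat φ G₀))) : Valid φ z.1 := by
  intro i
  have h1 : colSum z.1 (φ 1) = 0 := by
    rw [z.2.2]
    exact (colSum_gmat_12 φ G₀).1
  have h2 : colSum z.1 (φ 2) = 0 := by
    rw [z.2.2]
    exact (colSum_gmat_12 φ G₀).2
  exact ⟨(colSum_eq_zero_iff _ _).mp h1 i, (colSum_eq_zero_iff _ _).mp h2 i⟩

/-- The graph of a matrix with the margins of the matrix of `G₀` has the degrees of `G₀`. -/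
theorem degree_ggraph (φ : Fin 3 ↪ Fin n) (G₀ : Omega n d)
    (z : Om 3 n (fun i => (gmat φ G₀.1 i).card) (colSum (gmat φ G₀.1))) (v : Fin n) :
    (ggraph φ G₀.1 z.1).degree v = d v := by
  have e₀ : ggraph φ G₀.1 (gmat φ G₀.1) = G₀.1 :=
    ggraph_gmat φ G₀.1 G₀.1 (fun _ _ _ _ => Iff.rfl)
  have hv₀ := valid_gmat φ G₀.1
  have hz := valid_of_om φ G₀.1 z
  rw [degree_eq_card_filter]
  rcases out_or φ v with hb | ⟨i, rfl⟩
  · have h1 := card_adj_out φ G₀.1 z.1 hb
    have h2 := card_adj_out φ G₀.1 (gmat φ G₀.1) hb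
    rw [e₀, card_adj_eq G₀ v] at h2
    rw [h1, z.2.2 v]
    omega
  · have h1 := card_adj_in φ G₀.1 hz i
    have h2 := card_adj_in φ G₀.1 hv₀ i
    rw [e₀, card_adj_eq G₀ (φ i)] at h2
    have hzi : (z.1 i).card = (gmat φ G₀.1 i).card := z.2.1 i
    rw [z.2.2 (φ 0), hzi] at h1
    omega

/-- The parametrisation of the class of `G₀` by the three-row margin system. -/
noncomputable def iota (φ : Fin 3 ↪ Fin n) (G₀ : Omega n d)
    (z : Om 3 n (fun i => (gmat φ G₀.1 i).card) (colSum (gmat φ G₀.1))) : Omega n d :=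
  ⟨ggraph φ G₀.1 z.1, degree_ggraph φ G₀ z⟩

theorem iota_val (φ : Fin 3 ↪ Fin n) (G₀ : Omega n d)
    (z : Om 3 n (fun i => (gmat φ G₀.1 i).card) (colSum (gmat φ G₀.1))) :
    (iota φ G₀ z).1 = ggraph φ G₀.1 z.1 := rfl

theorem iota_injective (φ : Fin 3 ↪ Fin n) (G₀ : Omega n d) :
    Function.Injective (iota φ G₀) := by
  intro z z' h
  apply Subtype.ext
  have h1 := congrArg (fun y : Omega n d => gmat φ y.1) h
  simp only [iota_val] at h1
  rw [gmat_ggraph φ G₀.1 (valid_of_om φ G₀.1 z), gmat_ggraph φ G₀.1 (valid_of_om φ G₀.1 z')] at h1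
  exact h1

theorem exists_iota (φ : Fin 3 ↪ Fin n) (G₀ G : Omega n d)
    (hG : ∀ a b, Out φ a → Out φ b → (G.1.Adj a b ↔ G₀.1.Adj a b)) :
    ∃ z, iota φ G₀ z = G := by
  have hm := margins_of_class φ G₀ G hG
  refine ⟨⟨gmat φ G.1, hm.1, hm.2⟩, ?_⟩
  apply Subtype.ext
  rw [iota_val]
  exact ggraph_gmat φ G₀.1 G.1 hG

/-- Forgetting the vertices `φ l`, `l ∈ q`, corresponds to forgetting the rows in `q`. -/
theorem iota_compat (φ : Fin 3 ↪ Fin n) (G₀ : Omega n d) (q : Finset (Fin 3))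
    (hq : ∀ l l', l ∉ q → l' ∉ q → l = l')
    (z z' : Om 3 n (fun i => (gmat φ G₀.1 i).card) (colSum (gmat φ G₀.1))) :
    (∀ a b, a ∉ q.map φ → b ∉ q.map φ →
        ((iota φ G₀ z').1.Adj a b ↔ (iota φ G₀ z).1.Adj a b)) ↔ mask q z'.1 = mask q z.1 := by
  have hz := valid_of_om φ G₀.1 z
  have hz' := valid_of_om φ G₀.1 z'
  have hout : ∀ b, Out φ b → b ∉ q.map φ := by
    intro b hb hmem
    obtain ⟨k, -, rfl⟩ := Finset.mem_map.mp hmem
    exact hb k rfl
  rw [mask_eq_iff]
  constructor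
  · intro h l hl
    have hφl : φ l ∉ q.map φ := by
      intro hmem
      obtain ⟨k, hk, e⟩ := Finset.mem_map.mp hmem
      have := φ.injective e
      subst this
      exact hl hk
    have hO : ∀ b, Out φ b → (b ∈ z'.1 l ↔ b ∈ z.1 l) := by
      intro b hb
      have h1 := h (φ l) b hφl (hout b hb)
      rw [iota_val, iota_val, adj_in_out φ G₀.1 z'.1 l hb, adj_in_out φ G₀.1 z.1 l hb] at h1
      exact h1
    have hE : (z'.1 l).erase (φ 0) = (z.1 l).erase (φ 0) := by
      ext b
      simp only [mem_erase]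
      constructor
      · rintro ⟨h1, h2⟩
        rcases valid_mem φ hz' h2 with h3 | h3
        · exact ⟨h1, (hO b h3).mp h2⟩
        · exact absurd h3 h1
      · rintro ⟨h1, h2⟩
        rcases valid_mem φ hz h2 with h3 | h3
        · exact ⟨h1, (hO b h3).mpr h2⟩
        · exact absurd h3 h1
    have hc : (z'.1 l).card = (z.1 l).card := (z'.2.1 l).trans (z.2.1 l).symm
    have hEc := congrArg Finset.card hE
    have hmem0 : φ 0 ∈ z'.1 l ↔ φ 0 ∈ z.1 l := by
      by_cases h1 : φ 0 ∈ z'.1 l <;> by_cases h2 : φ 0 ∈ z.1 l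
      · exact ⟨fun _ => h2, fun _ => h1⟩
      · exfalso
        rw [Finset.card_erase_of_mem h1, Finset.erase_eq_of_notMem h2] at hEc
        have := Finset.card_pos.mpr ⟨_, h1⟩
        omega
      · exfalso
        rw [Finset.card_erase_of_mem h2, Finset.erase_eq_of_notMem h1] at hEc
        have := Finset.card_pos.mpr ⟨_, h2⟩
        omega
      · exact ⟨fun h => absurd h h1, fun h => absurd h h2⟩
    ext b
    constructor
    · intro hb
      rcases valid_mem φ hz' hb with h3 | rfl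
      · exact (hO b h3).mp hb
      · exact hmem0.mp hb
    · intro hb
      rcases valid_mem φ hz hb with h3 | rfl
      · exact (hO b h3).mpr hb
      · exact hmem0.mpr hb
  · intro h a b ha hb
    rw [iota_val, iota_val]
    rcases out_or φ a with hoa | ⟨j, rfl⟩
    · rcases out_or φ b with hob | ⟨k, rfl⟩
      · rw [adj_out_out φ G₀.1 _ hoa hob, adj_out_out φ G₀.1 _ hoa hob]
      · have hk : k ∉ q := fun hk => hb (Finset.mem_map_of_mem φ hk)
        rw [SimpleGraph.adj_comm, adj_in_out φ G₀.1 _ k hoa,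
          SimpleGraph.adj_comm (ggraph φ G₀.1 z.1), adj_in_out φ G₀.1 _ k hoa, h k hk]
    · have hj : j ∉ q := fun hj => ha (Finset.mem_map_of_mem φ hj)
      rcases out_or φ b with hob | ⟨k, rfl⟩
      · rw [adj_in_out φ G₀.1 _ j hob, adj_in_out φ G₀.1 _ j hob, h j hj]
      · have hk : k ∉ q := fun hk => hb (Finset.mem_map_of_mem φ hk)
        have := hq j k hj hk
        subst this
        simp

end triple

/-- **Vertex triples.**  The three-row inequality transfers to every vertex triple of the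
graphs with a prescribed degree vector: the conditional expectations given the graph outside
two of the three vertices satisfy the three-row inequality. The statement is generic in the
maps `κ S` used to encode the part of a graph outside the vertex set `S`. -/
theorem graph_triple
    (h3 : ∀ (m : ℕ) (r : Fin 3 → ℕ) (c : Fin m → ℕ) (g : Om 3 m r c → ℝ),
      ∑ q ∈ (univ : Finset (Fin 3)).powersetCard 2, ip g (R q g) ≤ 2 * ip g g + ip g (R univ g))
    {n : ℕ} {d : Fin n → ℕ} {K : Type*} [DecidableEq K] (κ : Finset (Fin n) → Omega n d → K)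
    (hκ : ∀ (S : Finset (Fin n)) (G G' : Omega n d),
      κ S G = κ S G' ↔ ∀ a b, a ∉ S → b ∉ S → (G.1.Adj a b ↔ G'.1.Adj a b))
    (T : Finset (Fin n)) (hT : T.card = 3) (f : Omega n d → ℝ) :
    ∑ p ∈ T.powersetCard 2, ip f (cexp (κ p) f) ≤ 2 * ip f f + ip f (cexp (κ T) f) := by
  obtain ⟨φ, rfl⟩ : ∃ φ : Fin 3 ↪ Fin n, (univ : Finset (Fin 3)).map φ = T :=
    ⟨(T.orderEmbOfFin hT).toEmbedding, map_orderEmbOfFin_univ T hT⟩
  have hL : ∑ p ∈ ((univ : Finset (Fin 3)).map φ).powersetCard 2, ip f (cexp (κ p) f)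
      = ∑ x, ∑ p ∈ ((univ : Finset (Fin 3)).map φ).powersetCard 2, f x * cexp (κ p) f x := by
    unfold ip
    rw [Finset.sum_comm]
  have hR : 2 * ip f f + ip f (cexp (κ ((univ : Finset (Fin 3)).map φ)) f)
      = ∑ x, (2 * (f x * f x) + f x * cexp (κ ((univ : Finset (Fin 3)).map φ)) f x) := by
    unfold ip
    rw [Finset.sum_add_distrib, Finset.mul_sum]
  rw [hL, hR]
  apply sum_le_sum_of_classes (κ ((univ : Finset (Fin 3)).map φ))
  intro G₀
  have hOutT : ∀ a, a ∉ (univ : Finset (Fin 3)).map φ ↔ Out φ a := by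
    intro a
    constructor
    · intro h k hk
      exact h (Finset.mem_map.mpr ⟨k, mem_univ k, hk⟩)
    · intro h hmem
      obtain ⟨k, -, hk⟩ := Finset.mem_map.mp hmem
      exact h k hk
  have himg : ∀ y, κ ((univ : Finset (Fin 3)).map φ) y = κ ((univ : Finset (Fin 3)).map φ) G₀
      ↔ ∃ z, iota φ G₀ z = y := by
    intro y
    rw [hκ]
    constructor
    · intro h
      exact exists_iota φ G₀ y (fun a b ha hb => h a b ((hOutT a).mpr ha) ((hOutT b).mpr hb))
    · rintro ⟨z, rfl⟩ a b ha hb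
      exact adj_out_out φ G₀.1 z.1 ((hOutT a).mp ha) ((hOutT b).mp hb)
  rw [sum_class (κ ((univ : Finset (Fin 3)).map φ)) (iota φ G₀) (iota_injective φ G₀) G₀ himg,
    sum_class (κ ((univ : Finset (Fin 3)).map φ)) (iota φ G₀) (iota_injective φ G₀) G₀ himg]
  obtain ⟨g, hg⟩ : ∃ g : Om 3 n (fun i => (gmat φ G₀.1 i).card) (colSum (gmat φ G₀.1)) → ℝ,
      g = fun z => f (iota φ G₀ z) := ⟨_, rfl⟩
  have key := h3 n (fun i => (gmat φ G₀.1 i).card) (colSum (gmat φ G₀.1)) g
  unfold ip at key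
  rw [Finset.sum_comm] at key
  have hcexp : ∀ q : Finset (Fin 3), (∀ l l', l ∉ q → l' ∉ q → l = l') → ∀ z,
      cexp (κ (q.map φ)) f (iota φ G₀ z) = R q g z := by
    intro q hq z
    rw [hg]
    unfold R
    apply cexp_transfer (κ (q.map φ)) (fun x : Om 3 n (fun i => (gmat φ G₀.1 i).card)
      (colSum (gmat φ G₀.1)) => mask q x.1) (iota φ G₀) (iota_injective φ G₀) z
    · intro y hy
      apply (himg y).mp
      rw [hκ] at hy ⊢
      intro a b ha hb
      have ha' : a ∉ q.map φ := fun h => ha (Finset.map_subset_map.mpr (subset_univ q) h)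
      have hb' : b ∉ q.map φ := fun h => hb (Finset.map_subset_map.mpr (subset_univ q) h)
      rw [hy a b ha' hb']
      exact adj_out_out φ G₀.1 z.1 ((hOutT a).mp ha) ((hOutT b).mp hb)
    · intro z'
      rw [hκ]
      exact iota_compat φ G₀ q hq z z'
  have e1 : ∀ z, ∑ p ∈ ((univ : Finset (Fin 3)).map φ).powersetCard 2,
        f (iota φ G₀ z) * cexp (κ p) f (iota φ G₀ z)
      = ∑ q ∈ (univ : Finset (Fin 3)).powersetCard 2, g z * R q g z := by
    intro z
    rw [powersetCard_map, Finset.sum_map]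
    refine Finset.sum_congr rfl (fun q hq => ?_)
    simp only [RelEmbedding.coe_toEmbedding, mapEmbedding_apply]
    rw [hcexp q (pair_compl q (mem_powersetCard.mp hq).2) z, hg]
  have e2 : ∀ z, 2 * (f (iota φ G₀ z) * f (iota φ G₀ z))
        + f (iota φ G₀ z) * cexp (κ ((univ : Finset (Fin 3)).map φ)) f (iota φ G₀ z)
      = 2 * (g z * g z) + g z * R univ g z := by
    intro z
    rw [hcexp univ (fun l _ hl => absurd (mem_univ l) hl) z, hg]
  simp only [e1, e2]
  rw [Finset.sum_add_distrib, ← Finset.mul_sum]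
  exact key

end Vale.Agent.Lib.P335.H48G
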