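import Mathlib
import Vale.Agent.Lib.P335.helper26.BipDefs
import Vale.Agent.Lib.P335.helper26.Abstract

/-!
P335, graph case: the abstract operator inequality behind the pairwise estimate for two
disjoint vertex pairs.

`EA`, `EB` are two conditional expectations, `EMA ≥ EA` and `EMB ≥ EB` two finer ones that
commute with each other, and the product `EM = EMA ∘ EMB` commutes with `EA` and with `EB`.
Then the correlation of `1 - EB` and `1 - EA` dominates the correlation of `EM - EM ∘ EB`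
and `EM - EM ∘ EA`.
-/

namespace Vale.Agent.Lib.P335.H48G

open Finset
open Vale.Agent.Lib.P335.Bip

theorem pair_abstract {Ω : Type*} [Fintype Ω] (EA EB EMA EMB : (Ω → ℝ) →ₗ[ℝ] (Ω → ℝ))
    (sA : ∀ f g, ip f (EA g) = ip (EA f) g) (sB : ∀ f g, ip f (EB g) = ip (EB f) g)
    (sMA : ∀ f g, ip f (EMA g) = ip (EMA f) g) (sMB : ∀ f g, ip f (EMB g) = ip (EMB f) g)
    (iA : ∀ f, EA (EA f) = EA f) (iB : ∀ f, EB (EB f) = EB f)
    (iMA : ∀ f, EMA (EMA f) = EMA f) (iMB : ∀ f, EMB (EMB f) = EMB f)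
    (hA : ∀ f, EMA (EA f) = EA f) (hB : ∀ f, EMB (EB f) = EB f)
    (hM : ∀ f, EMA (EMB f) = EMB (EMA f))
    (cA : ∀ f, EMA (EMB (EA f)) = EA (EMA (EMB f)))
    (cB : ∀ f, EMA (EMB (EB f)) = EB (EMA (EMB f)))
    (g : Ω → ℝ) :
    ip (EMA (EMB g) - EMA (EMB (EB g))) (EMA (EMB g) - EMA (EMB (EA g)))
      ≤ ip (g - EB g) (g - EA g) := by
  obtain ⟨EM, hEM⟩ : ∃ EM : (Ω → ℝ) →ₗ[ℝ] (Ω → ℝ), ∀ f, EM f = EMA (EMB f) :=
    ⟨EMA ∘ₗ EMB, fun f => rfl⟩
  have sM : ∀ f g, ip f (EM g) = ip (EM f) g := by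
    intro f g
    rw [hEM, hEM, sMA, sMB, ← hM]
  have iM : ∀ f, EM (EM f) = EM f := by
    intro f
    rw [hEM, hEM, ← hM (EMB f), iMB, iMA]
  have cA' : ∀ f, EM (EA f) = EA (EM f) := by
    intro f
    rw [hEM, hEM, cA]
  have cB' : ∀ f, EM (EB f) = EB (EM f) := by
    intro f
    rw [hEM, hEM, cB]
  obtain ⟨u, hu⟩ : ∃ u : Ω → ℝ, u = g - EB g := ⟨_, rfl⟩
  obtain ⟨v, hv⟩ : ∃ v : Ω → ℝ, v = g - EA g := ⟨_, rfl⟩
  obtain ⟨h, hh⟩ : ∃ h : Ω → ℝ, h = g - EM g := ⟨_, rfl⟩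
  have hu2 : u - EM u = h - EB h := by
    rw [hu, hh, map_sub, map_sub, cB']
    abel
  have hv2 : v - EM v = h - EA h := by
    rw [hv, hh, map_sub, map_sub, cA']
    abel
  have hEMh : EM h = 0 := by
    rw [hh, map_sub, iM, sub_self]
  have hcross1 : ip (EM u) (v - EM v) = 0 := by
    rw [← sM, map_sub, iM, sub_self, ip_zero_right]
  have hcross2 : ip (u - EM u) (EM v) = 0 := by
    rw [sM, map_sub, iM, sub_self, ip_zero_left]
  have hdecomp : ip u v = ip (EM u) (EM v) + ip (u - EM u) (v - EM v) := by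
    have e1 : u = EM u + (u - EM u) := by abel
    have e2 : v = EM v + (v - EM v) := by abel
    conv_lhs => rw [e1, e2]
    rw [ip_add_left, ip_add_right, ip_add_right, hcross1, hcross2]
    ring
  have h1 : ip (EB h) (EA h) = 0 := by
    rw [← hB, ← hA, ← sMB, ← hM, cA, ← hEM, hEMh, map_zero, ip_zero_right]
  have h2 : ip h (EA h) = ip (EA h) (EA h) := by
    rw [← sA, iA]
  have h3 : ip h (EB h) = ip (EB h) (EB h) := by
    rw [← sB, iB]
  have hpos : 0 ≤ ip (h - EB h) (h - EA h) := by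
    have h4 := ip_self_nonneg (h - EA h - EB h)
    have e4 : ip (h - EA h - EB h) (h - EA h - EB h)
        = ip h h - 2 * ip h (EA h) - 2 * ip h (EB h) + ip (EA h) (EA h) + ip (EB h) (EB h)
          + 2 * ip (EB h) (EA h) := by
      simp only [ip_sub_left, ip_sub_right]
      rw [ip_comm (EA h) h, ip_comm (EB h) h, ip_comm (EA h) (EB h)]
      ring
    have e5 : ip (h - EB h) (h - EA h)
        = ip h h - ip h (EA h) - ip h (EB h) + ip (EB h) (EA h) := by
      simp only [ip_sub_left, ip_sub_right]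
      rw [ip_comm (EB h) h]
      ring
    rw [e4] at h4
    rw [e5]
    linarith
  have hgoal : ip (EMA (EMB g) - EMA (EMB (EB g))) (EMA (EMB g) - EMA (EMB (EA g)))
      = ip (EM u) (EM v) := by
    rw [hu, hv, map_sub, map_sub, hEM, hEM, hEM]
  rw [hgoal, ← hu, ← hv, hdecomp, hu2, hv2]
  linarith

end Vale.Agent.Lib.P335.H48G
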