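import Mathlib
import Vale.Agent.Lib.P335.helper72.GraphDefs

/-!
P335, graph case: the summation step.

From the pairwise inequality for two disjoint vertex pairs (`hPW`) and the Johnson-type bound
for the correction terms of one pair (`hJ`), the sum of the products of the projections
`1 - GR p`, `1 - GR q` over all ordered pairs of disjoint 2-subsets `p`, `q` dominates
`c` times the sum of the forms of the `1 - GR p`.  The correction terms `Kf` and the switch
energies `Ef` enter only through the two hypotheses, so the statement does not depend on how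
they are defined.
-/

namespace Vale.Agent.Lib.P335.H48G

open Finset
open scoped Classical
open Vale.Agent.Lib.P335 Vale.Agent.Lib.P335.Bip Vale.Agent.Lib.P335.Gr

/-- A sum over ordered pairs of distinct points is twice the sum over 2-subsets. -/
theorem sum_ordered_pairs {n : ℕ} (g : Finset (Fin n) → ℝ) :
    ∑ a : Fin n × Fin n, (if a.1 ≠ a.2 then g {a.1, a.2} else 0)
      = 2 * ∑ p ∈ (univ : Finset (Fin n)).powersetCard 2, g p := by
  rw [← Finset.sum_filter]
  have hmaps : ∀ a ∈ (univ.filter (fun a : Fin n × Fin n => a.1 ≠ a.2)),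
      ({a.1, a.2} : Finset (Fin n)) ∈ (univ : Finset (Fin n)).powersetCard 2 := by
    intro a ha
    rw [mem_powersetCard]
    exact ⟨subset_univ _, card_pair (mem_filter.mp ha).2⟩
  rw [← Finset.sum_fiberwise_of_maps_to hmaps, Finset.mul_sum]
  apply Finset.sum_congr rfl
  intro p hp
  obtain ⟨u, v, huv, rfl⟩ := Finset.card_eq_two.mp (mem_powersetCard.mp hp).2
  have hfib : (univ.filter (fun a : Fin n × Fin n => a.1 ≠ a.2)).filter
      (fun a => ({a.1, a.2} : Finset (Fin n)) = {u, v}) = {(u, v), (v, u)} := by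
    ext ⟨x, y⟩
    simp only [mem_filter, mem_univ, true_and, mem_insert, mem_singleton, Prod.mk.injEq]
    constructor
    · rintro ⟨hxy, h⟩
      have hx : x ∈ ({u, v} : Finset (Fin n)) := by
        rw [← h]
        simp
      have hy : y ∈ ({u, v} : Finset (Fin n)) := by
        rw [← h]
        simp
      rw [mem_insert, mem_singleton] at hx hy
      rcases hx with rfl | rfl <;> rcases hy with rfl | rfl
      · exact absurd rfl hxy
      · exact Or.inl ⟨rfl, rfl⟩
      · exact Or.inr ⟨rfl, rfl⟩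
      · exact absurd rfl hxy
    · rintro (⟨rfl, rfl⟩ | ⟨rfl, rfl⟩)
      · exact ⟨huv, rfl⟩
      · exact ⟨huv.symm, Finset.pair_comm _ _⟩
  have hne : (u, v) ≠ (v, u) := fun h => huv (Prod.mk.inj h).1
  rw [hfib, Finset.sum_pair hne]
  simp only
  rw [Finset.pair_comm v u]
  ring

/-- A sum over ordered pairs of disjoint ordered pairs is four times the sum over ordered
pairs of disjoint 2-subsets. -/
theorem sum_ordered_pairs_two {n : ℕ} (F : Finset (Fin n) → Finset (Fin n) → ℝ) :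
    ∑ a : Fin n × Fin n, ∑ b : Fin n × Fin n,
        (if a.1 ≠ a.2 then (if b.1 ≠ b.2 then
          (if Disjoint ({a.1, a.2} : Finset (Fin n)) {b.1, b.2} then F {a.1, a.2} {b.1, b.2}
            else 0) else 0) else 0)
      = 4 * ∑ p ∈ (univ : Finset (Fin n)).powersetCard 2,
          ∑ q ∈ (univ : Finset (Fin n)).powersetCard 2, (if Disjoint p q then F p q else 0) := by
  have h1 : ∀ a : Fin n × Fin n,
      ∑ b : Fin n × Fin n, (if a.1 ≠ a.2 then (if b.1 ≠ b.2 then
          (if Disjoint ({a.1, a.2} : Finset (Fin n)) {b.1, b.2} then F {a.1, a.2} {b.1, b.2}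
            else 0) else 0) else 0)
        = if a.1 ≠ a.2 then 2 * ∑ q ∈ (univ : Finset (Fin n)).powersetCard 2,
            (if Disjoint ({a.1, a.2} : Finset (Fin n)) q then F {a.1, a.2} q else 0) else 0 := by
    intro a
    by_cases ha : a.1 ≠ a.2
    · simp only [if_pos ha]
      exact sum_ordered_pairs
        (fun q => if Disjoint ({a.1, a.2} : Finset (Fin n)) q then F {a.1, a.2} q else 0)
    · simp only [if_neg ha, Finset.sum_const_zero]
  simp only [h1]
  rw [sum_ordered_pairs (fun p => 2 * ∑ q ∈ (univ : Finset (Fin n)).powersetCard 2,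
    (if Disjoint p q then F p q else 0)), ← Finset.mul_sum]
  ring

theorem dist4_iff {n : ℕ} (x y z w : Fin n) :
    (x ≠ y ∧ z ≠ w ∧ Disjoint ({x, y} : Finset (Fin n)) {z, w}) ↔
      (x ≠ y ∧ x ≠ z ∧ x ≠ w ∧ y ≠ z ∧ y ≠ w ∧ z ≠ w) := by
  rw [Finset.disjoint_left]
  constructor
  · rintro ⟨hxy, hzw, hd⟩
    have hx := hd (a := x) (by simp)
    have hy := hd (a := y) (by simp)
    simp only [mem_insert, mem_singleton, not_or] at hx hy
    exact ⟨hxy, hx.1, hx.2, hy.1, hy.2, hzw⟩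
  · rintro ⟨hxy, hxz, hxw, hyz, hyw, hzw⟩
    refine ⟨hxy, hzw, ?_⟩
    intro a ha
    simp only [mem_insert, mem_singleton, not_or] at ha ⊢
    rcases ha with rfl | rfl
    · exact ⟨hxz, hxw⟩
    · exact ⟨hyz, hyw⟩

/-- **Summation step.**  The pairwise inequality `hPW` and the one-pair bound `hJ` for the
correction terms give the lower bound `c * ∑_p ⟨f, (1 - GR p) f⟩` for the sum of the products
of the disjoint pair projections. -/
theorem sum_step {n : ℕ} {d : Fin n → ℕ} (f : Omega n d → ℝ) (c : ℝ)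
    (Kf Ef : Fin n → Fin n → Fin n → Fin n → ℝ)
    (hPW : ∀ x y z w, x ≠ y → x ≠ z → x ≠ w → y ≠ z → y ≠ w → z ≠ w →
      Ef x y z w - (1 / 2) * Kf x y z w - (1 / 2) * Kf z w x y
        ≤ ip (f - GR {x, y} f) (f - GR {z, w} f))
    (hJ : ∀ x y, x ≠ y →
      (∑ z, ∑ w, if (x ≠ z ∧ x ≠ w ∧ y ≠ z ∧ y ≠ w ∧ z ≠ w) then Kf x y z w else 0)
          + 2 * c * (ip f f - ip f (GR {x, y} f))
        ≤ ∑ z, ∑ w, if (x ≠ z ∧ x ≠ w ∧ y ≠ z ∧ y ≠ w ∧ z ≠ w) then Ef x y z w else 0) :
    c * ∑ p ∈ (univ : Finset (Fin n)).powersetCard 2, (ip f f - ip f (GR p f)) ≤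
      ∑ p ∈ (univ : Finset (Fin n)).powersetCard 2,
        ∑ q ∈ (univ : Finset (Fin n)).powersetCard 2,
          (if Disjoint p q then ip (f - GR p f) (f - GR q f) else 0) := by
  -- indicator of four distinct points, for two ordered pairs
  obtain ⟨DD, hDD⟩ : ∃ DD : Fin n × Fin n → Fin n × Fin n → Prop, ∀ a b, DD a b ↔
      (a.1 ≠ a.2 ∧ a.1 ≠ b.1 ∧ a.1 ≠ b.2 ∧ a.2 ≠ b.1 ∧ a.2 ≠ b.2 ∧ b.1 ≠ b.2) :=
    ⟨fun a b => (a.1 ≠ a.2 ∧ a.1 ≠ b.1 ∧ a.1 ≠ b.2 ∧ a.2 ≠ b.1 ∧ a.2 ≠ b.2 ∧ b.1 ≠ b.2),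
      fun _ _ => Iff.rfl⟩
  have hDDsymm : ∀ a b, DD a b ↔ DD b a := by
    intro a b
    rw [hDD, hDD]
    constructor
    · rintro ⟨h1, h2, h3, h4, h5, h6⟩
      exact ⟨h6, h2.symm, h4.symm, h3.symm, h5.symm, h1⟩
    · rintro ⟨h1, h2, h3, h4, h5, h6⟩
      exact ⟨h6, h2.symm, h4.symm, h3.symm, h5.symm, h1⟩
  -- the big sum over ordered pairs
  have hB := sum_ordered_pairs_two (n := n)
    (fun p q => ip (f - GR p f) (f - GR q f))
  have hB' : ∑ a : Fin n × Fin n, ∑ b : Fin n × Fin n,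
      (if DD a b then ip (f - GR {a.1, a.2} f) (f - GR {b.1, b.2} f) else 0)
        = 4 * ∑ p ∈ (univ : Finset (Fin n)).powersetCard 2,
          ∑ q ∈ (univ : Finset (Fin n)).powersetCard 2,
            (if Disjoint p q then ip (f - GR p f) (f - GR q f) else 0) := by
    rw [← hB]
    refine Finset.sum_congr rfl (fun a _ => Finset.sum_congr rfl (fun b _ => ?_))
    have hiff := dist4_iff a.1 a.2 b.1 b.2
    by_cases h : DD a b
    · have h' := hiff.mpr ((hDD a b).mp h)
      rw [if_pos h, if_pos h'.1, if_pos h'.2.1, if_pos h'.2.2]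
    · rw [if_neg h]
      by_cases h1 : a.1 ≠ a.2
      · by_cases h2 : b.1 ≠ b.2
        · by_cases h3 : Disjoint ({a.1, a.2} : Finset (Fin n)) {b.1, b.2}
          · exact absurd ((hDD a b).mpr (hiff.mp ⟨h1, h2, h3⟩)) h
          · rw [if_pos h1, if_pos h2, if_neg h3]
        · rw [if_pos h1, if_neg h2]
      · rw [if_neg h1]
  -- lower bound from the pairwise inequality
  have hstep1 : ∑ a : Fin n × Fin n, ∑ b : Fin n × Fin n,
      (if DD a b then (Ef a.1 a.2 b.1 b.2 - (1 / 2) * Kf a.1 a.2 b.1 b.2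
        - (1 / 2) * Kf b.1 b.2 a.1 a.2) else 0)
      ≤ ∑ a : Fin n × Fin n, ∑ b : Fin n × Fin n,
      (if DD a b then ip (f - GR {a.1, a.2} f) (f - GR {b.1, b.2} f) else 0) := by
    refine Finset.sum_le_sum (fun a _ => Finset.sum_le_sum (fun b _ => ?_))
    by_cases h : DD a b
    · rw [if_pos h, if_pos h]
      obtain ⟨h1, h2, h3, h4, h5, h6⟩ := (hDD a b).mp h
      exact hPW a.1 a.2 b.1 b.2 h1 h2 h3 h4 h5 h6
    · rw [if_neg h, if_neg h]
  -- symmetrisation of the second correction term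
  have hsw : ∑ a : Fin n × Fin n, ∑ b : Fin n × Fin n,
      (if DD a b then Kf b.1 b.2 a.1 a.2 else 0)
      = ∑ a : Fin n × Fin n, ∑ b : Fin n × Fin n,
      (if DD a b then Kf a.1 a.2 b.1 b.2 else 0) := by
    rw [Finset.sum_comm]
    refine Finset.sum_congr rfl (fun a _ => Finset.sum_congr rfl (fun b _ => ?_))
    by_cases h : DD a b
    · rw [if_pos h, if_pos ((hDDsymm a b).mp h)]
    · rw [if_neg h, if_neg (fun h' => h ((hDDsymm a b).mpr h'))]
  have hsplit : ∑ a : Fin n × Fin n, ∑ b : Fin n × Fin n,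
      (if DD a b then (Ef a.1 a.2 b.1 b.2 - (1 / 2) * Kf a.1 a.2 b.1 b.2
        - (1 / 2) * Kf b.1 b.2 a.1 a.2) else 0)
      = ∑ a : Fin n × Fin n, ∑ b : Fin n × Fin n,
          (if DD a b then Ef a.1 a.2 b.1 b.2 else 0)
        - ∑ a : Fin n × Fin n, ∑ b : Fin n × Fin n,
          (if DD a b then Kf a.1 a.2 b.1 b.2 else 0) := by
    have e : ∀ a b : Fin n × Fin n,
        (if DD a b then (Ef a.1 a.2 b.1 b.2 - (1 / 2) * Kf a.1 a.2 b.1 b.2
          - (1 / 2) * Kf b.1 b.2 a.1 a.2) else 0)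
        = (if DD a b then Ef a.1 a.2 b.1 b.2 else 0)
          - (1 / 2) * (if DD a b then Kf a.1 a.2 b.1 b.2 else 0)
          - (1 / 2) * (if DD a b then Kf b.1 b.2 a.1 a.2 else 0) := by
      intro a b
      by_cases h : DD a b
      · simp only [if_pos h]
      · simp only [if_neg h]
        ring
    simp only [e, Finset.sum_sub_distrib, ← Finset.mul_sum]
    rw [hsw]
    ring
  -- the one-pair bound
  have hstep2 : ∑ a : Fin n × Fin n,
      (if a.1 ≠ a.2 then 2 * c * (ip f f - ip f (GR {a.1, a.2} f)) else 0)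
      ≤ ∑ a : Fin n × Fin n, ∑ b : Fin n × Fin n,
          (if DD a b then Ef a.1 a.2 b.1 b.2 else 0)
        - ∑ a : Fin n × Fin n, ∑ b : Fin n × Fin n,
          (if DD a b then Kf a.1 a.2 b.1 b.2 else 0) := by
    rw [← Finset.sum_sub_distrib]
    refine Finset.sum_le_sum (fun a _ => ?_)
    by_cases ha : a.1 ≠ a.2
    · rw [if_pos ha]
      have hj := hJ a.1 a.2 ha
      have e1 : ∀ (X : Fin n → Fin n → Fin n → Fin n → ℝ),
          ∑ b : Fin n × Fin n, (if DD a b then X a.1 a.2 b.1 b.2 else 0)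
          = ∑ z, ∑ w, if (a.1 ≠ z ∧ a.1 ≠ w ∧ a.2 ≠ z ∧ a.2 ≠ w ∧ z ≠ w)
              then X a.1 a.2 z w else 0 := by
        intro X
        rw [Fintype.sum_prod_type]
        refine Finset.sum_congr rfl (fun z _ => Finset.sum_congr rfl (fun w _ => ?_))
        by_cases h : DD a (z, w)
        · rw [if_pos h, if_pos ((hDD a (z, w)).mp h).2]
        · rw [if_neg h, if_neg (fun h' => h ((hDD a (z, w)).mpr ⟨ha, h'⟩))]
      rw [e1 Ef, e1 Kf]
      linarith
    · rw [if_neg ha]
      have e0 : ∀ (X : Fin n → Fin n → Fin n → Fin n → ℝ),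
          ∑ b : Fin n × Fin n, (if DD a b then X a.1 a.2 b.1 b.2 else 0) = 0 := by
        intro X
        apply Finset.sum_eq_zero
        intro b _
        rw [if_neg (fun h => ha ((hDD a b).mp h).1)]
      rw [e0 Ef, e0 Kf, sub_zero]
  have hA := sum_ordered_pairs (n := n) (fun p => 2 * c * (ip f f - ip f (GR p f)))
  rw [hA] at hstep2
  rw [hsplit] at hstep1
  rw [hB'] at hstep1
  rw [← Finset.mul_sum] at hstep2
  linarith

end Vale.Agent.Lib.P335.H48G
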