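import Vale.Agent.Lib.P335.Defs

/-!
The switch operation preserves all degrees, so the switch chain never leaves `Ω_d`.
-/

namespace Vale.Agent.Lib.P335.H48

open Finset Vale.Agent.Lib.P335
open scoped Classical

variable {n : ℕ}

theorem perf_sub {S : Finset (Fin n)} {F : Finset (Sym2 (Fin n))} (hF : F ∈ perfMatchings S)
    {e : Sym2 (Fin n)} (he : e ∈ F) : ∀ v ∈ e, v ∈ S := by
  unfold perfMatchings at hF
  rw [Finset.mem_filter, Finset.mem_powerset] at hF
  exact Finset.mem_sym2_iff.mp (hF.1 he)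

theorem perf_nd {S : Finset (Fin n)} {F : Finset (Sym2 (Fin n))} (hF : F ∈ perfMatchings S)
    {e : Sym2 (Fin n)} (he : e ∈ F) : ¬ e.IsDiag := by
  unfold perfMatchings at hF
  rw [Finset.mem_filter] at hF
  exact hF.2.1 e he

theorem perf_uniq {S : Finset (Fin n)} {F : Finset (Sym2 (Fin n))} (hF : F ∈ perfMatchings S)
    {v : Fin n} (hv : v ∈ S) : ∃! e, e ∈ F ∧ v ∈ e := by
  unfold perfMatchings at hF
  rw [Finset.mem_filter] at hF
  exact hF.2.2 v hv

/-- the partner of a vertex of `S` in a perfect matching -/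
theorem perf_partner {S : Finset (Fin n)} {F : Finset (Sym2 (Fin n))} (hF : F ∈ perfMatchings S)
    {v : Fin n} (hv : v ∈ S) :
    ∃ a : Fin n, v ≠ a ∧ s(v, a) ∈ F ∧ ∀ w, s(v, w) ∈ F → w = a := by
  obtain ⟨e, ⟨heF, hve⟩, huniq⟩ := perf_uniq hF hv
  obtain ⟨a, rfl⟩ := Sym2.mem_iff_exists.mp hve
  refine ⟨a, ?_, heF, ?_⟩
  · have := perf_nd hF heF
    rw [Sym2.mk_isDiag_iff] at this
    exact this
  · intro w hw
    have := huniq s(v, w) ⟨hw, Sym2.mem_mk_left v w⟩
    exact Sym2.congr_right.mp this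

theorem degree_congr {G G' : SimpleGraph (Fin n)} {v : Fin n}
    [Fintype (G'.neighborSet v)] [Fintype (G.neighborSet v)]
    (h : ∀ w, G'.Adj v w ↔ G.Adj v w) : G'.degree v = G.degree v := by
  unfold SimpleGraph.degree
  congr 1
  ext w
  simp only [SimpleGraph.mem_neighborFinset]
  exact h w

theorem degree_exchange {G G' : SimpleGraph (Fin n)} {v a b : Fin n}
    [Fintype (G'.neighborSet v)] [Fintype (G.neighborSet v)]
    (hadj : ∀ w, G'.Adj v w ↔ ((G.Adj v w ∧ w ≠ a) ∨ w = b))
    (hGa : G.Adj v a) (hGb : ¬ G.Adj v b) : G'.degree v = G.degree v := by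
  have hset : G'.neighborFinset v = insert b ((G.neighborFinset v).erase a) := by
    ext w
    simp only [SimpleGraph.mem_neighborFinset, Finset.mem_insert, Finset.mem_erase]
    rw [hadj w]
    tauto
  unfold SimpleGraph.degree
  rw [hset, Finset.card_insert_of_notMem, Finset.card_erase_of_mem]
  · have : 0 < (G.neighborFinset v).card :=
      Finset.card_pos.mpr ⟨a, by simpa using hGa⟩
    omega
  · simpa using hGa
  · simp only [Finset.mem_erase, SimpleGraph.mem_neighborFinset, not_and]
    intro _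
    exact hGb

theorem switch_pos {G : SimpleGraph (Fin n)} {F F' : Finset (Sym2 (Fin n))}
    (hc : (∀ e ∈ F, e ∈ G.edgeSet) ∧ (∀ e ∈ F', e ∉ G.edgeSet)) :
    switch G F F' = SimpleGraph.fromEdgeSet
      ((G.edgeSet \ (F : Set (Sym2 (Fin n)))) ∪ (F' : Set (Sym2 (Fin n)))) := if_pos hc

theorem switch_neg {G : SimpleGraph (Fin n)} {F F' : Finset (Sym2 (Fin n))}
    (hc : ¬ ((∀ e ∈ F, e ∈ G.edgeSet) ∧ (∀ e ∈ F', e ∉ G.edgeSet))) :
    switch G F F' = G := if_neg hc

theorem switch_degree (G : SimpleGraph (Fin n)) (S : Finset (Fin n))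
    (F F' : Finset (Sym2 (Fin n))) (hF : F ∈ perfMatchings S) (hF' : F' ∈ perfMatchings S)
    (v : Fin n) : (switch G F F').degree v = G.degree v := by
  by_cases hc : (∀ e ∈ F, e ∈ G.edgeSet) ∧ (∀ e ∈ F', e ∉ G.edgeSet)
  · by_cases hv : v ∈ S
    · obtain ⟨a, hva, haF, hau⟩ := perf_partner hF hv
      obtain ⟨b, hvb, hbF, hbu⟩ := perf_partner hF' hv
      have hGa : G.Adj v a := by
        have := hc.1 _ haF
        rwa [SimpleGraph.mem_edgeSet] at this
      have hGb : ¬ G.Adj v b := by
        have := hc.2 _ hbF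
        rwa [SimpleGraph.mem_edgeSet] at this
      refine degree_exchange (G' := switch G F F') (a := a) (b := b) ?_ hGa hGb
      intro w
      rw [switch_pos hc, SimpleGraph.fromEdgeSet_adj]
      constructor
      · rintro ⟨h | h, hne⟩
        · left
          refine ⟨by simpa using h.1, ?_⟩
          rintro rfl
          exact h.2 (by simpa using haF)
        · right
          exact hbu w (by simpa using h)
      · rintro (⟨h1, h2⟩ | rfl)
        · refine ⟨Or.inl ⟨by simpa using h1, ?_⟩, h1.ne⟩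
          intro hin
          exact h2 (hau w (by simpa using hin))
        · exact ⟨Or.inr (by simpa using hbF), hvb⟩
    · refine degree_congr (G' := switch G F F') ?_
      intro w
      rw [switch_pos hc, SimpleGraph.fromEdgeSet_adj]
      have h1 : s(v, w) ∉ F := fun h => hv (perf_sub hF h v (Sym2.mem_mk_left v w))
      have h2 : s(v, w) ∉ F' := fun h => hv (perf_sub hF' h v (Sym2.mem_mk_left v w))
      constructor
      · rintro ⟨h | h, _⟩
        · simpa using h.1
        · exact absurd (by simpa using h) h2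
      · intro h
        exact ⟨Or.inl ⟨by simpa using h, by simpa using h1⟩, h.ne⟩
  · rw [switch_neg hc]

theorem mp_mem {S : Finset (Fin n)} {p : Finset (Sym2 (Fin n)) × Finset (Sym2 (Fin n))}
    (hp : p ∈ matchingPairs S) : p.1 ∈ perfMatchings S ∧ p.2 ∈ perfMatchings S ∧ p.1 ≠ p.2 := by
  unfold matchingPairs at hp
  rw [Finset.mem_filter, Finset.mem_product] at hp
  exact ⟨hp.1.1, hp.1.2, hp.2⟩

/-- The switched graph, as an element of `Ω_d`. -/
noncomputable def sw {d : Fin n → ℕ} (G : Omega n d) (S : Finset (Fin n))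
    (p : Finset (Sym2 (Fin n)) × Finset (Sym2 (Fin n))) (hp : p ∈ matchingPairs S) : Omega n d :=
  ⟨switch G.1 p.1 p.2, fun v => by
    rw [switch_degree G.1 S p.1 p.2 (mp_mem hp).1 (mp_mem hp).2.1 v]; exact G.2 v⟩

end Vale.Agent.Lib.P335.H48
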