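import Vale.Agent.Lib.P335.helper48.SwitchDeg
import Vale.Agent.Lib.P335.LowerBound

/-!
Facts on the transition matrix of the switch chain: it is symmetric, its rows sum to one,
its diagonal entries are at least `1/2`, and an entry between two graphs differing by a
switch is at least `1 / (12 * C(n,4))`.
-/

namespace Vale.Agent.Lib.P335.H48

open Finset Vale.Agent.Lib.P335
open scoped Classical

variable {n : ℕ} {d : Fin n → ℕ}

/-- Reversing a successful switch. -/
theorem switch_swap {G G' : SimpleGraph (Fin n)} {S : Finset (Fin n)}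
    {p : Finset (Sym2 (Fin n)) × Finset (Sym2 (Fin n))} (hp : p ∈ matchingPairs S)
    (h : switch G p.1 p.2 = G') (hne : G ≠ G') : switch G' p.2 p.1 = G := by
  obtain ⟨hF, hF', _⟩ := mp_mem hp
  by_cases hc : (∀ e ∈ p.1, e ∈ G.edgeSet) ∧ (∀ e ∈ p.2, e ∉ G.edgeSet)
  · rw [switch_pos hc] at h
    have hE' : ∀ e, e ∈ G'.edgeSet ↔ ((e ∈ G.edgeSet ∧ e ∉ p.1) ∨ e ∈ p.2) := by
      intro e
      rw [← h, SimpleGraph.edgeSet_fromEdgeSet]
      simp only [Set.mem_sdiff, Set.mem_union, Finset.mem_coe]
      constructor
      · rintro ⟨h1, _⟩; exact h1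
      · intro h1
        refine ⟨h1, ?_⟩
        rcases h1 with h1 | h1
        · intro hd
          exact (SimpleGraph.not_isDiag_of_mem_edgeSet G h1.1) hd
        · exact perf_nd hF' h1
    have hc' : (∀ e ∈ p.2, e ∈ G'.edgeSet) ∧ (∀ e ∈ p.1, e ∉ G'.edgeSet) := by
      refine ⟨fun e he => (hE' e).mpr (Or.inr he), ?_⟩
      intro e he hin
      rcases (hE' e).mp hin with h1 | h1
      · exact h1.2 he
      · exact hc.2 e h1 (hc.1 e he)
    rw [switch_pos hc']
    ext v w
    rw [SimpleGraph.fromEdgeSet_adj]
    simp only [Set.mem_sdiff, Set.mem_union, Finset.mem_coe]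
    rw [hE']
    constructor
    · rintro ⟨(⟨(⟨h1, _⟩ | h1), h2⟩ | h1), _⟩
      · simpa using h1
      · exact absurd h1 h2
      · simpa using hc.1 _ h1
    · intro hadj
      refine ⟨?_, hadj.ne⟩
      by_cases h1 : s(v, w) ∈ p.1
      · exact Or.inr h1
      · refine Or.inl ⟨Or.inl ⟨by simpa using hadj, h1⟩, ?_⟩
        intro h2
        exact hc.2 _ h2 (by simpa using hadj)
  · rw [switch_neg hc] at h
    exact absurd h hne

theorem card_filter_swap_le (G G' : Omega n d) (hne : G ≠ G') (S : Finset (Fin n)) :
    ((matchingPairs S).filter (fun p => switch G.1 p.1 p.2 = G'.1)).card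
      ≤ ((matchingPairs S).filter (fun p => switch G'.1 p.1 p.2 = G.1)).card := by
  apply Finset.card_le_card_of_injOn Prod.swap
  · intro p hp
    rw [Finset.mem_coe, Finset.mem_filter] at hp ⊢
    have hne' : G.1 ≠ G'.1 := fun h => hne (Subtype.ext h)
    refine ⟨?_, switch_swap hp.1 hp.2 hne'⟩
    obtain ⟨h1, h2, h3⟩ := mp_mem hp.1
    unfold matchingPairs
    rw [Finset.mem_filter, Finset.mem_product]
    exact ⟨⟨h2, h1⟩, fun h => h3 h.symm⟩
  · intro p _ q _ hpq
    exact Prod.swap_injective hpq

theorem switchMatrix_symm (G G' : Omega n d) : switchMatrix n d G G' = switchMatrix n d G' G := by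
  by_cases h : G = G'
  · subst h; rfl
  · unfold switchMatrix
    have h' : ¬ G' = G := fun e => h e.symm
    rw [if_neg h, if_neg h']
    congr 2
    apply Finset.sum_congr rfl
    intro S _
    congr 2
    exact le_antisymm (card_filter_swap_le G G' h S) (card_filter_swap_le G' G h' S)

theorem sum_card_filter_eq (G : Omega n d) (S : Finset (Fin n)) :
    ∑ H : Omega n d, ((matchingPairs S).filter (fun p => switch G.1 p.1 p.2 = H.1)).card
      = (matchingPairs S).card := by
  have key := Finset.card_eq_sum_card_fiberwise (s := matchingPairs S)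
    (t := (Finset.univ : Finset (Omega n d)))
    (f := fun p => if hp : p ∈ matchingPairs S then sw G S p hp else G)
    (fun x _ => Finset.mem_univ _)
  rw [key]
  apply Finset.sum_congr rfl
  intro H _
  congr 1
  apply Finset.filter_congr
  intro p hp
  rw [dif_pos hp]
  constructor
  · intro h; exact Subtype.ext h
  · intro h; rw [← h]; rfl

theorem card_four_sets (hn : 4 ≤ n) :
    (0 : ℝ) < (((univ : Finset (Fin n)).powersetCard 4).card : ℝ) := by
  rw [Finset.card_powersetCard, Finset.card_univ, Fintype.card_fin]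
  exact_mod_cast Nat.choose_pos hn

theorem card_four_sets_eq :
    (((univ : Finset (Fin n)).powersetCard 4).card : ℝ) = (n.choose 4 : ℝ) := by
  rw [Finset.card_powersetCard, Finset.card_univ, Fintype.card_fin]

theorem switchMatrix_row_sum (hn : 4 ≤ n) (G : Omega n d) :
    ∑ H : Omega n d, switchMatrix n d G H = 1 := by
  unfold switchMatrix
  rw [Finset.sum_add_distrib, ← Finset.mul_sum, Finset.sum_comm]
  have h1 : ∑ H : Omega n d, (if G = H then (1 / 2 : ℝ) else 0) = 1 / 2 := by
    rw [Finset.sum_ite_eq]
    simp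
  have h2 : ∑ S ∈ (univ : Finset (Fin n)).powersetCard 4, ∑ H : Omega n d,
      (1 / ((matchingPairs S).card : ℝ)) *
        (((matchingPairs S).filter (fun p => switch G.1 p.1 p.2 = H.1)).card : ℝ)
      = (((univ : Finset (Fin n)).powersetCard 4).card : ℝ) := by
    have : ∀ S ∈ (univ : Finset (Fin n)).powersetCard 4, ∑ H : Omega n d,
        (1 / ((matchingPairs S).card : ℝ)) *
          (((matchingPairs S).filter (fun p => switch G.1 p.1 p.2 = H.1)).card : ℝ)
        = 1 := by
      intro S hS
      rw [← Finset.mul_sum, ← Nat.cast_sum, sum_card_filter_eq G S]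
      have hS4 : S.card = 4 := (Finset.mem_powersetCard.mp hS).2
      have hc : ((matchingPairs S).card : ℝ) ≠ 0 := by
        exact_mod_cast matchingPairs_card_ne_zero S hS4
      field_simp
    rw [Finset.sum_congr rfl this]
    simp
  rw [h1, h2]
  have hpos := card_four_sets (n := n) hn
  field_simp
  ring

theorem switchMatrix_diag_ge (G : Omega n d) : (1 / 2 : ℝ) ≤ switchMatrix n d G G := by
  unfold switchMatrix
  rw [if_pos rfl]
  have : (0 : ℝ) ≤ (1 / 2 : ℝ) * (1 / (((univ : Finset (Fin n)).powersetCard 4).card : ℝ)) *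
      ∑ S ∈ (univ : Finset (Fin n)).powersetCard 4,
        (1 / ((matchingPairs S).card : ℝ)) *
          (((matchingPairs S).filter (fun p => switch G.1 p.1 p.2 = G.1)).card : ℝ) := by
    apply mul_nonneg
    · apply mul_nonneg (by norm_num)
      apply div_nonneg (by norm_num) (Nat.cast_nonneg _)
    · apply Finset.sum_nonneg
      intro S _
      apply mul_nonneg
      · apply div_nonneg (by norm_num) (Nat.cast_nonneg _)
      · exact Nat.cast_nonneg _
  linarith

end Vale.Agent.Lib.P335.H48
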